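import Crest.Agent.X212.Gla92.Lf
import Crest.Agent.X212.Gb50.Geo

/-! # Row 212, GL (helper23): the leaves `NkX`, `NkS` -/

set_option autoImplicit false
set_option linter.unusedSectionVars false
noncomputable section
open scoped Manifold ContDiff Topology
open Set Function Filter Metric

namespace Crest.Agent.X212.Gnk23
open An An.Job M Prm93 Cht98 Nd18 Gj67 Gb50 Gla92 Mon62
open Gl67 (Sid ka ka_mono ka_lip)

/-! ### real functions -/

section real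
variable {s t R τ n : ℝ}

theorem ka_abs (s t : ℝ) : |ka s - ka t| ≤ |s - t| := by
  wlog h : t ≤ s generalizing s t
  · rw [abs_sub_comm, abs_sub_comm s]; exact this _ _ (le_of_not_ge h)
  rw [abs_of_nonneg (sub_nonneg.2 (ka_mono h)), abs_of_nonneg (sub_nonneg.2 h)]
  exact ka_lip h

theorem fl_one (h : 0 ≤ s) : 0 ≤ fl s ∧ fl s ≤ 1 := ⟨(fl_mem h).1, (le_total s 1).elim
  (fl_mem h).2.trans fun k => (fl_ge k).trans_le zero_le_one⟩

theorem gh_lip (hs : 0 ≤ s) (ht : 0 ≤ t) : |gh R s - gh R t| ≤ 3 + |s - t| := by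
  refine (ka_abs _ _).trans (abs_le.2 ⟨?_, ?_⟩) <;>
    linarith [fl_one hs, fl_one ht, le_abs_self (s - t), neg_abs_le (s - t)]

theorem rho_lip (s t : ℝ) : |rho s - rho t| ≤ 1 + |s - t| := by
  have b : ∀ u : ℝ, rho u ≤ |u| + 1 := fun u => (rho_spec u).2.1.trans
    (max_le (by linarith) (by linarith [abs_nonneg u]))
  have := abs_le.1 (abs_abs_sub_abs_le s t)
  exact abs_le.2 ⟨by linarith [b t, (rho_spec s).1], by linarith [b s, (rho_spec t).1]⟩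

theorem tent_lip (hs : s ∈ Dp (some 0) (some n) (1 / 2)) (ht : t ∈ Dp (some 0) (some n) (1 / 2))
    (c : ℝ) : |tent R τ (tf (some 0) (some n) s - c) - tent R τ (tf (some 0) (some n) t - c)| ≤
      3 + |s - t| := by
  have b : ∀ u ∈ Dp (some 0) (some n) (1 / 2), |tf (some 0) (some n) u - u| ≤ 1 := fun u k => by
    have h1 := fl_one (s := u - 0) (by linarith [k.1 0 rfl])
    have h2 := fl_one (s := n - u) (by linarith [k.2 n rfl])
    simp only [tf, Option.elim]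
    exact abs_le.2 ⟨by linarith, by linarith⟩
  have h1 := abs_le.1 (b s hs)
  have h2 := abs_le.1 (b t ht)
  refine (ka_abs _ _).trans ?_
  rw [sub_sub_sub_cancel_left, abs_sub_comm]
  refine (rho_lip _ _).trans ?_
  have : |tf (some 0) (some n) s - c - (tf (some 0) (some n) t - c)| ≤ 2 + |s - t| := abs_le.2
    ⟨by linarith [neg_abs_le (s - t)], by linarith [le_abs_self (s - t)]⟩
  linarith

end real

variable {Wi : Type} {X : Mf 4} {A κ lam : Type} [Fintype A] [Fintype κ] [Fintype lam]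
  [DecidableEq lam] {M : Mark X A κ} {W : World M} {L : ML M lam} {Λ : Lns W L}
  {A' h : Type} [Fintype A'] [DecidableEq A'] [Fintype h] {r n : ℕ}
  {J : Job Wi Λ A' h r n} {σ : Cel A'} {a : A'}
  {U Up R : Type} [NormedAddCommGroup U] [NormedSpace ℝ U] [NormedAddCommGroup Up]
  [NormedSpace ℝ Up] [NormedAddCommGroup R] [NormedSpace ℝ R]

/-! ### finite necks -/

section fin
variable {c : M.Cl} {x : A} {p p' : Prm A}

theorem key (hJ : J.OK) (k : Act J.m c x none p) {z : (W.Z c).M} (hz : |hZ W.toCaps c x z| < 1)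
    {y : (M.bn x).Y.M} (e : W.nj c x (y, hZ W.toCaps c x z) = z) :
    z ∈ (J.K c x none _ k).ψ.target ∧ (J.K c x none _ k).ψ.symm z =
      ((J.g x).symm y, len (p.2 x) false (hZ W.toCaps c x z)) := by
  have b := hJ.nk c x none _ k
  have m1 : hZ W.toCaps c x z ∈ Cht98.Hs (p.2 x) false :=
    ⟨abs_lt.1 hz, .inl (k.2.2.1 x k.2.2.2.2.1)⟩
  have b1 := isNk_len k b m1 ((J.g x).symm y)
  rw [(J.g x).apply_symm_apply, e] at b1
  have b2 := (J.K c x none _ k).mem_src (z := ((J.g x).symm y, _)) |>.2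
    (isNk_J k b ▸ (bijOn_len (act_le k) _).1 m1)
  exact ⟨b1 ▸ (J.K c x none _ k).ψ.map_source b2,
    (congrArg _ b1.symm).trans ((J.K c x none _ k).ψ.left_inv b2)⟩

/-- necks of the same length are the same -/
theorem same {b : Option Bool} {G' : Geo (W.Z c).I (W.Z c).M (Option κ) (lam ⊕ lam)}
    (hJ : J.OK) (k : Act J.m c x b p) (k' : Act J.m c x b p') (e : p.2 x = p'.2 x)
    {K' : Nk (J.xs x).D (Λ.B J.m c) G'} (h1 : K'.p = (J.K c x b _ k').p)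
    (h2 : K'.q = (J.K c x b _ k').q) (h3 : K'.ψ = (J.K c x b _ k').ψ) :
    Same (J.K c x b _ k) K' := by
  have b1 := hJ.nk c x b _ k
  have b2 := hJ.nk c x b _ k'
  refine ⟨by rw [h1, b1.lo, b2.lo], by rw [h2, b1.hi, b2.hi, e], fun z hz => ?_⟩
  have b3 := (J.K c x b _ k).mem_src.1 hz
  rw [h3, isNk_ψ k b1 b3, isNk_ψ k' b2 (by rwa [isNk_J k' b2, ← e, ← isNk_J k b1]), e]

/-- **finite necks are switched off or move smoothly** -/
theorem fin (hJ : J.OK) (c : M.Cl) (x : A) {s₀ : A' → ℝ}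
    (h1 : x ∈ M.sys.fr c.1 → (J.Θ s₀).2 x < 1) : ∃ O' ∈ 𝓝 s₀,
    ∀ {T : Type} [NormedAddCommGroup T] [NormedSpace ℝ T] {ι : Type}
      {G0 : ι → Geo (W.Z c).I (W.Z c).M (Option κ) (lam ⊕ lam)} {θ : ι → T → A' → ℝ}
      {Q : ι → Set T} {N : ℕ} {Jc : En (Fin N)}
      (s : ∀ i, Sid (jF J c (G0 i) (θ i) (Q i)) N Jc U Up R) (Ω : Set (W.Z c).M),
      (∀ i, ∀ t ∈ Q i, θ i t ∈ O' ∧ J.Θ (θ i t) ∈ M.Br c.1 ∧ J.Θ (θ i t) ∈ M.O c.1) →
      (x ∈ J.m.1 → {z | |hZ W.toCaps c x z| < 1} ⊆ Ω) → NkA s Ω x none := by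
  have sτ : ContDiff ℝ ∞ fun u => (J.Θ u).2 x := contDiff_pi.1 hJ.sm.snd x
  by_cases e : (J.Θ s₀).2 x < 3 / 4
  · exact ⟨_, sτ.continuous.continuousAt.eventually (Iio_mem_nhds e), fun _ _ k _ =>
      .inl fun i t ht _ => by_contra fun k' => (hJ.ν0 x _ k').2.not_gt (k i t ht).1⟩
  by_cases e' : ¬M.pin x ∧ x ∈ J.m.1 ∧ x ∈ M.sys.fr c.1
  swap
  · exact ⟨univ, univ_mem, fun _ _ _ _ => .inl fun _ _ _ k =>
      (e' ⟨k.1, k.2.2.2.1, k.2.2.2.2.1⟩).elim⟩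
  have l0 := h1 e'.2.2
  have cl : ∀ {p : ℝ × ℝ}, p.1 < 1 → ContDiffAt ℝ ∞ (fun p : ℝ × ℝ => len p.1 false p.2) p :=
    fun k => cd_len.contDiffAt ((isOpen_lt continuous_fst continuous_const).mem_nhds k)
  have c1 : ∀ u, (J.Θ u).2 x < 1 → ∀ y, ContDiffAt ℝ ∞ (fun u => len ((J.Θ u).2 x) false y) u :=
    fun u hu y => (cl (p := (_, y)) hu).comp u (f := fun u => ((J.Θ u).2 x, y))
      (sτ.contDiffAt.prodMk contDiffAt_const)
  have c2 : ∀ y, ContinuousAt (len ((J.Θ s₀).2 x) false) y := fun y =>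
    ((cl (p := (_, y)) l0).comp y (contDiffAt_const.prodMk contDiffAt_id)).continuousAt
  obtain ⟨x₁, x1, x2⟩ := (((c2 (-1)).eventually (Iio_mem_nhds (show _ < (1 / 4 : ℝ) from
    (len_pm _ false).trans_lt (by norm_num)))).filter_mono (nhdsWithin_le_nhds (s := Ioi (-1)))
      |>.and (Ioo_mem_nhdsGT (show (-1 : ℝ) < 1 by norm_num))).exists
  obtain ⟨x₂, x3, x4⟩ := (((c2 1).eventually (Ioi_mem_nhds (show nl ((J.Θ s₀).2 x) - 1 / 4 < _ from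
    sub_lt_self _ (by norm_num)))).filter_mono (nhdsWithin_le_nhds (s := Iio 1))
      |>.and (Ioo_mem_nhdsLT (show (-1 : ℝ) < 1 by norm_num))).exists
  have hS : {u | (1 / 2 < (J.Θ u).2 x ∧ (J.Θ u).2 x < 1) ∧ len ((J.Θ u).2 x) false x₁ < 1 / 4 ∧
      nl ((J.Θ u).2 x) - 1 / 4 < len ((J.Θ u).2 x) false x₂} ∈ 𝓝 s₀ := by
    filter_upwards [sτ.continuous.continuousAt.eventually
      (Ioo_mem_nhds (show 1 / 2 < (J.Θ s₀).2 x by linarith) l0),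
      (c1 _ l0 x₁).continuousAt.eventually (Iio_mem_nhds x1),
      ((c1 _ l0 1).continuousAt.sub continuousAt_const).eventually_lt (c1 _ l0 x₂).continuousAt x3]
      with u b1 b2 b3 using ⟨b1, b2, b3⟩
  obtain ⟨O', o1, o2, o3⟩ := exists_compact_subset isOpen_interior (mem_interior_iff_mem_nhds.2 hS)
  refine ⟨O', mem_interior_iff_mem_nhds.1 o2, fun {T _ _ ι G0 θ Q N Jc} s Ω k hΩ => ?_⟩
  by_cases ne : ∃ i t, t ∈ Q i
  swap
  · exact .inl fun i t ht => (ne ⟨i, t, ht⟩).elim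
  have ac : ∀ i, ∀ t ∈ Q i, J.Ac c (θ i t) (x, none) := fun i t ht =>
    ⟨e'.1, (k i t ht).2.1, (k i t ht).2.2, e'.2.1, e'.2.2,
      (interior_subset (o3 (k i t ht).1)).1.1.le⟩
  obtain ⟨i₁, t₁, ht₁⟩ := ne
  have a0 : Act J.m c x none (J.Θ (θ i₁ t₁)) := ac i₁ t₁ ht₁
  have l1 := (interior_subset (o3 (k i₁ t₁ ht₁).1)).1.2
  have ch := sm_hZ W.toCaps (act_ok a0).mem
  have ex := fun z (hz : |hZ W.toCaps c x z| < 1) =>
    (exists_of_hZ W.toCaps (act_ok a0).mem (hz.trans (by norm_num))).imp fun _ k => k.2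
  have mo := fun (v : ℝ) (hv : v < 1) y z => (strictMonoOn_len v false).le_iff_le
    (a := y) (b := z) (.inl hv) (.inl hv)
  let K0 := J.K c x none _ a0
  have sub : univ ×ˢ Icc (len ((J.Θ (θ i₁ t₁)).2 x) false x₁) (len ((J.Θ (θ i₁ t₁)).2 x) false x₂) ⊆
      K0.ψ.source := fun z hz => K0.mem_src.2 (isNk_J a0 (hJ.nk c x none _ a0) ▸
    have b := fun y hy => (len_mem_iff (t := (J.Θ (θ i₁ t₁)).2 x) (b := false) (s := y) (.inl l1)).2 hy
    ⟨fun p k => ((b _ x2).1 p k).trans_le hz.2.1, fun p k => hz.2.2.trans_lt ((b _ x4).2 p k)⟩)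
  have cV : hZ W.toCaps c x ⁻¹' Icc x₁ x₂ ⊆ {z | |hZ W.toCaps c x z| < 1} := fun z hz =>
    abs_lt.2 ⟨x2.1.trans_le hz.1, hz.2.trans_lt x4.2⟩
  have dC : ∀ u ∈ interior _, ∀ z, len ((J.Θ u).2 x) false (hZ W.toCaps c x z) ∈
      Dp (some 0) (some (nl ((J.Θ u).2 x))) (1 / 4) → z ∈ hZ W.toCaps c x ⁻¹' Icc x₁ x₂ :=
    fun u hu z hz => have b := interior_subset (s := {u | (1 / 2 < (J.Θ u).2 x ∧ (J.Θ u).2 x < 1) ∧
      len ((J.Θ u).2 x) false x₁ < 1 / 4 ∧ nl ((J.Θ u).2 x) - 1 / 4 < len ((J.Θ u).2 x) false x₂}) hu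
    ⟨(mo _ b.1.2 _ _).1 (b.2.1.le.trans (zero_add (1 / 4 : ℝ) ▸ hz.1 0 rfl)),
      (mo _ b.1.2 _ _).1 ((hz.2 _ rfl).trans b.2.2.le)⟩
  refine .inr ⟨ac, .inl ⟨_, O', {z | |hZ W.toCaps c x z| < 1}, hZ W.toCaps c x ⁻¹' Icc x₁ x₂,
    fun z => (K0.ψ.symm z).1, fun u z => len ((J.Θ u).2 x) false (hZ W.toCaps c x z), fun _ => 0,
    fun u => nl ((J.Θ u).2 x), isOpen_interior, o1, o3, fun i t ht => (k i t ht).1,
    isOpen_lt ch.continuous.abs continuous_const, ?_, cV, cV.trans (hΩ e'.2.1),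
    contMDiff_fst.comp_contMDiffOn (K0.iso.sm'.mono fun z hz =>
      let ⟨y, b⟩ := ex z hz; (key hJ a0 hz b).1), fun u hu => ?_, fun i t ht => ?_⟩⟩
  · refine ((isCompact_univ.prod isCompact_Icc).image_of_continuousOn
      (K0.ψ.continuousOn.mono sub)).of_isClosed_subset (isClosed_Icc.preimage ch.continuous)
      fun z hz => ?_
    obtain ⟨y, b⟩ := ex z (cV hz)
    obtain ⟨b6, b7⟩ := key hJ a0 (cV hz) b
    refine ⟨_, ⟨trivial, ?_⟩, K0.ψ.right_inv b6⟩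
    rw [b7]
    exact ⟨(mo _ l1 _ _).2 hz.1, (mo _ l1 _ _).2 hz.2⟩
  · have b := interior_subset hu
    exact ⟨contDiffAt_const, c1 u b.1.2 1,
      (zero_add _).trans_le (two_le_nl (by linarith [b.1.1]) b.1.2), fun z _ =>
      ⟨(cl (p := (_, hZ W.toCaps c x z)) b.1.2).contMDiffAt.comp (u, z)
        ((JAt.of_par sτ.contDiffAt).prodMk_space (JAt.of_fixed (ch z))), dC u hu z⟩⟩
  · have b := hJ.nk c x none _ (ac i t ht)
    refine ⟨b.lo, b.hi, fun z hz => dC _ (o3 (k i t ht).1) z ?_, fun z hz => ?_⟩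
    · have b1 : z ∈ (J.K c x none _ (ac i t ht)).ψ.target := Nk.dp_sub _ (by norm_num) hz
      have b2 : (J.K c x none _ (ac i t ht)).tm z ∈ Dp (J.K c x none _ (ac i t ht)).p
        (J.K c x none _ (ac i t ht)).q (1 / 4) := hz
      rwa [isNk_tm (ac i t ht) b b1, b.lo, b.hi] at b2
    · obtain ⟨y, b⟩ := ex z hz
      refine ⟨(key hJ (ac i t ht) hz b).1, (key hJ (ac i t ht) hz b).2.trans ?_⟩
      simp only [K0, (key hJ a0 hz b).2]

end fin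

variable {d : Dat J σ a U Up R} {q₀ : Wi →₀ ℝ} {δ : ℝ} (H : d.OK q₀ δ)
include H

theorem ev_s {O : Set (A' → ℝ)} (hO : O ∈ 𝓝 d.y.s) :
    ∀ᶠ q : ℝ × Tc σ a in 𝓝 (1, 0), d.s q.1 q.2 ∈ O :=
  (cd_ee _).continuous.continuousAt.eventually_mem (show O ∈ 𝓝 (d.s 1 0) from (s_one H).symm ▸ hO)

theorem ev_ν : ∀ᶠ q : ℝ × Tc σ a in 𝓝 (1, 0), J.ν d.x (d.s q.1 q.2) = 1 := by
  obtain ⟨s₀, k1, k2⟩ := H.ok.lin
  exact (continuous_fst.continuousAt.eventually (Ici_mem_nhds k1)).mono fun q k =>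
    (k2 a _ H.hd _ (le_of_le_of_eq k (ee_a _ _ _).symm)).2 (d.hb true).1

theorem evX {P : ℝ × Tc σ a → Prop} (hP : ∀ᶠ q in 𝓝 (1, 0), P q)
    {Z : ∀ ι : Type, (ι → d.Ta) → ℝ → Prop} (k : ∀ ι τ ρ, (∀ i, Lg d (τ i)) →
      (∀ i, ∀ t ∈ QX d (τ i) ρ, P (τ i, t)) → Z ι τ ρ) : EvX d Z := by
  obtain ⟨r, r0, h1⟩ := Metric.eventually_nhds_iff_ball.1 hP
  refine ⟨_, (ev_lg H).and (tendsto_comap.eventually (ball_mem_nhds 1 r0)), r, r0,
    fun ι τ h2 ρ h3 => k ι τ ρ (fun i => (h2 i).1) fun i t ht => h1 _ ?_⟩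
  rw [← ball_prod_same]
  exact ⟨(h2 i).2, ball_subset_ball h3.2 ht.2⟩

omit H in
theorem evS {P : ℝ × Tc σ a → Prop} (hP : ∀ᶠ q in 𝓝 (1, 0), P q) {Z : ℝ → Prop}
    (k : ∀ ρ, (∀ t ∈ QS d ρ, P (1, t)) → Z ρ) : EvS Z := by
  obtain ⟨r, r0, h1⟩ := Metric.eventually_nhds_iff_ball.1 hP
  refine ⟨r, r0, fun ρ h3 => k ρ fun t ht => h1 _ ?_⟩
  rw [← ball_prod_same]
  exact ⟨mem_ball_self r0, ball_subset_ball h3.2 ht.2⟩

/-- points off the band of the broken wall lie in the face -/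
theorem mem_Om {t : ℝ} (ht : 0 < t) {z : (W.Z M.c0).M} (hz : 1 ≤ |h0 W d.x z|) : z ∈ Om d t := by
  obtain ⟨w, rfl⟩ := ex_up H (z := z) fun e => by rw [e, abs_zero] at hz; linarith
  rw [h0_up H] at hz
  obtain ⟨b, hb⟩ := ex_side (hc d w)
  refine ⟨w, ⟨?_, ?_⟩, congrFun (φ_eq H 0) w⟩
  · obtain ⟨x, hx, rfl⟩ := ex_φ H w
    exact ⟨(W.φ (J.cf a)).map_source ((W.mem_src _).2 hx),
      (W.mem_src _).2 (by simp [Mark.c0, Sys.cores])⟩
  · show d.hS w < t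
    rwa [hS_side H b (hb ▸ abs_nonneg _), gh_off H b fun e => ((S_tgt H b).1 e).1.not_ge hz]

/-- **LEAF NK-X** -/
theorem nkX : NkX d := fun x b => (eventually_gt_atTop 0).mono fun t ht => by
  cases b with
  | some b => exact ⟨univ, univ_mem, 1, one_pos, fun _ _ _ _ _ => .inl fun _ _ _ k => k.2.2.2.elim⟩
  | none =>
  by_cases e : x = d.x
  · subst e
    refine evX H ((ev_gp H).and (ev_ν H)) fun ι τ ρ T k => .inr ⟨fun i t ht =>
      have k1 := (k i t ht).1 (T i).lt.le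
      ⟨k1.1.cyl, Mark.mem_Br_c0 k1.2.1, ht.1, k1.1.mem, fr0 _, k1.1.half⟩,
      .inr ⟨⟨fun i => KH H (τ i), 3, fun i t ht => same H.ok _ (τ i).2
        (((T i).x t).trans ((T i).x 0).symm) rfl rfl rfl, fun i z hz z' hz' => ?_⟩,
        fun i t ht => (k i t ht).2⟩⟩
    have b1 : (d.KX (τ i)).tm z ∈ Dp (d.KX (τ i)).p (d.KX (τ i)).q (1 / 2) := hz
    have b2 : (d.KX (τ i)).tm z' ∈ Dp (d.KX (τ i)).p (d.KX (τ i)).q (1 / 2) := hz'
    rw [X_p H (T i), X_q H (T i)] at b1 b2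
    show |d.hX (τ i) z - d.hX (τ i) z'| ≤ 3 + |(d.KX (τ i)).tm z - (d.KX (τ i)).tm z'|
    rw [hX_eq H (T i), hX_eq H (T i)]
    exact tent_lip b1 b2 _
  · obtain ⟨O, o1, o2⟩ := fin (U := U) (Up := Up) (R := R) H.ok M.c0 x fun _ => (gp0 H).o x e
    refine evX H ((ev_gp H).and (ev_s H o1)) fun ι τ ρ T k => o2 _ _ (fun i t ht =>
      ⟨(k i t ht).2, Mark.mem_Br_c0 ((k i t ht).1 (T i).lt.le).2.1, ht.1⟩) fun m z hz =>
        mem_Om H ht (not_lt.1 fun k' => disjoint_left.1 (disjoint_hZ W.toCaps (.inr (fr0 x))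
          (.inr (fr0 d.x)) (J.m.2 m (gp0 H).mem e)) (show _ < (3 : ℝ) from lt_trans hz (by norm_num))
          (show _ < (3 : ℝ) from lt_trans k' (by norm_num)))

theorem br_S {t : Tc σ a} (k : (th d (1, t)).2 ∈ M.sys.Par ∧ (th d (1, t)).2 d.x = 1) :
    J.Θ (d.s 1 t) ∈ M.Br (J.cf a).1 := ⟨k.1, fun _ e => (mem_cf H).1 e ▸ k.2⟩

/-- **LEAF NK-S** -/
theorem nkS : NkS d := fun x b => by
  cases b with
  | none =>
    obtain ⟨O, o1, o2⟩ := fin (U := U) (Up := Up) (R := R) H.ok (J.cf a) x ((d.hb true).2.2.1 x)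
    exact evS (d := d) ((ev_gp H).and (ev_s H o1)) fun ρ k => o2 _ _ (fun i t ht =>
      ⟨(k t ht).2, br_S H ((k t ht).1 le_rfl).2, ht.1⟩) fun _ => subset_univ _
  | some b =>
  by_cases e : x = d.x
  swap
  · exact ⟨1, one_pos, fun _ _ => .inl fun _ _ _ k => (e ((mem_cf H).1 k.2.2.2)).elim⟩
  subst e
  refine evS (d := d) ((ev_gp H).and (ev_ν H)) fun ρ k => .inr ⟨fun i t ht =>
    ⟨(d.hb b).1, br_S H ((k t ht).1 le_rfl).2, ht.1, H.hd⟩,
    .inr ⟨⟨fun _ => d.KS b, 3, fun i t ht => same H.ok _ (d.hb b)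
      (((k t ht).1 le_rfl).2.2.trans (px d).symm) rfl rfl rfl, fun i z hz z' hz' => ?_⟩,
      fun i t ht => (k t ht).2⟩⟩
  have b1 := (d.KS b).dp_sub one_half_pos hz
  have b2 := (d.KS b).dp_sub one_half_pos hz'
  show |d.hS z - d.hS z'| ≤ 3 + |(d.KS b).tm z - (d.KS b).tm z'|
  rw [hS_side H b ((S_tgt H b).1 b1).2.le, hS_side H b ((S_tgt H b).1 b2).2.le]
  rw [(d.KS b).tgt] at b1 b2
  refine (gh_lip ((S_J H b).1 b1).le ((S_J H b).1 b2).le).trans_eq ?_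
  rw [← mul_sub, abs_mul]
  cases b <;> simp [pm]

end Crest.Agent.X212.Gnk23
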