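import Crest.Agent.X212.Iz83.Tr
import Crest.Agent.X212.Wrd81.Trf
import Crest.Agent.X212.Cyf70.Kr
import Crest.Agent.X212.Eqv71.Cyl

/-!
# Row 212 (helper23): nondegeneracy and the type `Fx` are invariant under gauge equivalence
-/

set_option autoImplicit false
set_option linter.unusedSectionVars false
noncomputable section
open scoped Manifold ContDiff Topology InnerProductSpace
open MeasureTheory Set Function Filter

namespace Crest.Agent.X212.Gnk23
open An An.Pre Map77 Sob92 Nd18 Cyf70 Dec35 Iz83 Eqv71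

variable {E3 : Type} [NormedAddCommGroup E3] [NormedSpace ℝ E3] [FiniteDimensional ℝ E3]
  [MeasurableSpace E3] [BorelSpace E3]
  {H3 : Type} [TopologicalSpace H3] {I3 : ModelWithCorners ℝ E3 H3} [I3.Boundaryless]
  {Y : Type} [TopologicalSpace Y] [ChartedSpace H3 Y] [IsManifold I3 ∞ Y] [T2Space Y]
  [MeasurableSpace Y] [BorelSpace Y] [SecondCountableTopology Y] [CompactSpace Y]
  {κ : Type} [Fintype κ] {lam : Type} [Fintype lam] {D : YD I3 Y κ lam} {β β' : YC Y κ lam}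
  {N : ND Y lam}

theorem fx_iso (hD : D.OK) (A : D.Adm β) (A' : D.Adm β') (e : D.Eqv β β') (h : D.Fx β) :
    D.Fx β' :=
  let ⟨_, _, e⟩ := e
  Wrd81.ceq_fix (lg_refl hD.B hD.G isOpen_univ) (inv_refl isOpen_univ) (ad0 A.adm) (ad0 A'.adm) e h

theorem eqv_symm (hD : D.OK) (A : D.Adm β) (A' : D.Adm β') (e : D.Eqv β β') : D.Eqv β' β :=
  let ⟨_, _, e⟩ := e
  ⟨_, _, ceq_symm_id hD.B hD.G isOpen_univ (ad0 A.adm) (ad0 A'.adm) e⟩

/-- isomorphisms of temporal invariant configurations are static -/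
theorem static (A : D.Adm β) (A' : D.Adm β') {u : Y × ℝ → CL (cy β).m.V (cy β').m.V} {ζ : Circle}
    (h : Ie ⟨D.Z, ca D.a⟩ D.B u ζ) (x : Y × ℝ) : u x = u (x.1, 0) := by
  refine is_const_of_deriv_eq_zero (f := fun s => u (x.1, s))
    (fun s => (hasDerivAt_slice D.F.toPre h.su x.1 s).differentiableAt) (fun s => ?_) x.2 0
  have k := h.itw (x.1, s) none
  rw [show (cy β).W none (x.1, s) = 0 from A.tmp _, show (cy β').W none (x.1, s) = 0 from A'.tmp _,
    ContinuousLinearMap.zero_comp, ContinuousLinearMap.comp_zero, add_zero] at k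
  exact (hasDerivAt_slice D.F.toPre h.su x.1 s).deriv.trans k

theorem sm_sm {V : Type} [NormedAddCommGroup V] [NormedSpace ℝ V] {f : Y × ℝ → V} (ε : ℝ)
    (h : Sm (IC I3) f) : Sm (IC I3) fun x => ε • f x :=
  (contMDiff_const (I' := 𝓘(ℝ, ℝ)) (c := ε)).smul h

theorem hd0 {V V' : Type} [NormedAddCommGroup V] [NormedSpace ℝ V] [NormedAddCommGroup V']
    [NormedSpace ℝ V'] (L : CL V V') {f : ℝ → V} {g : ℝ → V'} (h : HasDerivAt f 0 0)
    (e : ∀ ε, g ε = L (f ε)) : HasDerivAt g 0 0 := by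
  have := L.hasFDerivAt.comp_hasDerivAt 0 h
  rw [map_zero] at this
  exact this.congr_of_eventuallyEq (.of_forall e)

section
variable {c c' : Cfg (Y × ℝ) (Option κ) lam 0} {w : Y × ℝ → Cv c}

theorem cf_sm (ε : ℝ) (w : Y × ℝ → Cv c) :
    cf c (fun x => ε • w x) = vr c (fun x => ε • fa (w x)) fun x => ε • fp (w x) := by
  simp only [cf, map_smul]

theorem ceq_sm {u : Y × ℝ → CL c.m.V c'.m.V} {ζ : Circle} (h : Ie ⟨D.Z, ca D.a⟩ D.B u ζ)
    (t : Tg D.B c w) (ε : ℝ) : CEq D.Z (vr c (fun x => ε • fa (w x)) fun x => ε • fp (w x))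
      (vr c' (fun x => ε • fa (aA c' (u x) ζ (w x))) fun x => ε • fp (aA c' (u x) ζ (w x))) univ id
      (fun x b a => D.B.P b a x) D.B.l u ζ := by
  have := h.ceq (t.smul fun _ => ε)
  unfold cf at this
  rwa [show (fun x => fa (ε • w x)) = _ from funext fun x => map_smul _ _ _,
    show (fun x => fp (ε • w x)) = _ from funext fun x => map_smul _ _ _,
    show (fun x => fa (aA c' (u x) ζ (ε • w x))) = fun x => ε • fa (aA c' (u x) ζ (w x)) by
      simp only [map_smul],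
    show (fun x => fp (aA c' (u x) ζ (ε • w x))) = fun x => ε • fp (aA c' (u x) ζ (w x)) by
      simp only [map_smul]] at this

theorem ph_nat {u : Y × ℝ → CL c.m.V c'.m.V} {ζ : Circle} (h : Ie ⟨D.Z, ca D.a⟩ D.B u ζ) {x}
    {ξ : c.m.A} (m : ξ ∈ c.m.gS x) (s : ℝ) :
    cs c'.m.J ζ (u x (opL ξ (c.Φ x) + s • c.m.J (c.Φ x))) =
      opL (cj (u x) ξ) (c'.Φ x) + s • c'.m.J (c'.Φ x) := by
  rw [show c'.Φ x = cs c'.m.J ζ (u x (c.Φ x)) from h.e.Φ x trivial,
    map_cs (Wz78.g_J (h.mem m)).symm, map_cs (J := c'.m.J) (J' := c'.m.J) rfl, (h.me x).J_apply,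
    show opL (cj (u x) ξ) (u x (c.Φ x)) = _ from DFunLike.congr_fun (h.cmp m) _]
  simp only [← csL_apply, map_add, map_smul, ContinuousLinearMap.comp_apply]

end

set_option maxHeartbeats 800000 in
theorem nd_iso (hD : D.OK) (hN : N.OK D) (A : D.Adm β) (A' : D.Adm β') (e : D.Eqv β β')
    (hn : N.Nondeg D β) : N.Nondeg D β' := by
  obtain ⟨v, ζ, e⟩ := eqv_symm hD A A' e
  have h := Ie.mk (G := ⟨D.Z, ca D.a⟩) (bs_cyl hD A') (bs_cyl hD A) e
  obtain ⟨g, rfl⟩ : ∃ g : Y → CL (cy β').m.V (cy β).m.V, v = fun x => g x.1 :=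
    ⟨fun y => v (y, 0), funext (static A' A h)⟩
  intro α φ sα sφ pα α0 pφ dD dC
  have o : OKZ D := ⟨hD, tame_Z hD⟩
  have nz := natZ (o.q1 hN (r := 0) (n := 0)) o
  obtain ⟨w, rfl, rfl, sw⟩ : ∃ w : Y → Cv (cy β'), α = (fun y => fa (w y)) ∧
      φ = (fun y => fp (w y)) ∧ Sm (IC I3) fun x : Y × ℝ => w x.1 :=
    ⟨fun y => i1 _ _ (α y) + i2 _ _ (φ y), funext fun _ => (add_zero _).symm,
      funext fun _ => (zero_add _).symm, Cyf70.sm_fst ((sm_clm _ sα).add (sm_clm _ sφ))⟩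
  have t : Tg D.B (cy β') fun x => w x.1 := .of (fun x => by
    have := Spn45.p1_iff.1 (pα x.1)
    refine Spn45.p1_iff.2 ⟨this.1, fun a => ?_⟩
    rw [← this.2 a]
    exact Finset.sum_congr rfl fun b _ => by cases a <;> cases b <;> rfl) fun x => pφ x.1
  have sA := h.cbA.choose_spec.1
  have t' := h.tg t
  have s' : Sm I3 fun y => aA (cy β) (g y) ζ (w y) := sm_slice_fst (sA.clm_apply sw) 0
  have k := fun ε : ℝ =>
    eq_nat (c := vr (cy β') (fun x => ε • fa (w x.1)) fun x => ε • fp (w x.1))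
      (c' := vr (cy β) (fun x => ε • fa (aA (cy β) (g x.1) ζ (w x.1)))
        fun x => ε • fp (aA (cy β) (g x.1) ζ (w x.1))) (u := fun x => g x.1) (ζ := ζ) hD nz
      (cf_sm (c := cy β') ε _ ▸ cf_adm A'.adm (sm_sm ε sw) (t.smul fun _ => ε))
      (cf_sm (c := cy β) ε _ ▸ cf_adm A.adm (sm_sm ε (sA.clm_apply sw)) (t'.smul fun _ => ε))
      (ceq_sm h t ε)
  obtain ⟨ξ, c, h1, h2, h3, h4⟩ := hn _ _ (sm_clm fa s') (sm_clm fp s') (fun y => t'.p1 (y, 0))
    (fun y => (fa_aA _ _ _).trans ((congrArg _ (α0 y)).trans (map_zero _)))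
    (fun y => t'.pp (y, 0))
    (fun x => hd0 (csL (cy β).m.J ζ ∘L g x.1) (dD x) fun ε => (k ε x).1)
    fun x s => hd0 (cj (g x.1)) (dC x s) fun ε => (k ε x).2 s
  have s1 : Sm (IC I3) fun x : Y × ℝ => cj (trn (g x.1)) (ξ x.1) :=
    (Mod61.Cb_cj h.symm.cb).choose_spec.1.clm_apply (Cyf70.sm_fst h1)
  have n := fun y => h.symm.dg_nat (Cyf70.sm_fst h1) (fun x => h2 x.1) (y, 0)
  refine ⟨fun y => cj (trn (g y)) (ξ y), c, sm_slice_fst s1 0,
    fun y => h.symm.mem (x := (y, 0)) (h2 y), fun a y => ?_, fun y => ?_⟩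
  · have e1 := congrArg (fa · (some a)) (h.inv t (y, 0))
    have e2 := congrArg (fa · (some a)) (n y)
    simp only [fa_aA (c := cy β)] at e1 e2
    rw [fa_dg_some s1, fa_dg_some (Cyf70.sm_fst h1)] at e2
    exact e1.symm.trans ((congrArg _ (h3 a y)).trans e2.symm)
  · have e1 := (fp_aA _ _).symm.trans (congrArg fp (h.inv t (y, 0)))
    have e2 := ph_nat (x := (y, 0)) h.symm (h2 y) c
    have e3 : fp (aA (cy β) (g y) ζ (w y)) = opL (κ := Fin (cy β).m.N) (ξ y) ((cy β).Φ (y, 0)) +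
      c • (cy β).m.J ((cy β).Φ (y, 0)) := h4 y
    rw [e3, e2] at e1
    exact e1.symm

end Crest.Agent.X212.Gnk23
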