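import Crest.Agent.X212.Nk89.Gwp
import Crest.Agent.X212.Gnk23.Nd
import Crest.Agent.X212.Nfo63.Loc
import Crest.Agent.X212.Pte3.Bas
import Crest.Agent.X212.Gb50.Geo

/-!
# Row 212, GW-ASM (helper23): the wall `Y₀` from its leaves
-/

set_option autoImplicit false
set_option linter.unusedSectionVars false
noncomputable section
open scoped Manifold ContDiff Topology
open Set Function Filter

namespace Crest.Agent.X212.Gnk23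
open An An.Job M Nd18 Gj67 Rf65 Pte3 Nk89
open Map77 (Cf)
open Cyf70 (IC)

theorem cv_bd {W α : Type} {l : Filter α} {q : α → W →₀ ℝ} {q₀ : W →₀ ℝ} (h : St.Cv l q q₀) :
    ∃ (S : Finset W) (Q : ℝ), ∀ᶠ i in l, (q i).support ⊆ S ∧ ∀ w, |q i w| ≤ Q := by
  classical
  obtain ⟨S, h1, h2⟩ := h
  have z : ∀ i, ∀ w ∉ S ∪ q₀.support, q i w = 0 := fun i w k => by
    rw [Finset.mem_union, not_or] at k
    rw [h1 i w k.1, Finsupp.notMem_support_iff.1 k.2]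
  have p : ∀ w ∈ S ∪ q₀.support, 0 ≤ |q₀ w| + 1 := fun _ _ => by positivity
  refine ⟨S ∪ q₀.support, ∑ w ∈ S ∪ q₀.support, (|q₀ w| + 1), ((S ∪ q₀.support).eventually_all.2
    fun w _ => (h2 w).abs.eventually (ge_mem_nhds (lt_add_one _))).mono fun i k =>
      ⟨fun w hw => by_contra fun e => Finsupp.mem_support_iff.1 hw (z i w e), fun w => ?_⟩⟩
  by_cases e : w ∈ S ∪ q₀.support
  · exact (k w e).trans (Finset.single_le_sum p e)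
  · rw [z i w e, abs_zero]; exact Finset.sum_nonneg p

variable {Wi : Type} {X : Mf 4} {A κ lam : Type} [Fintype A] [Fintype κ] [Fintype lam]
  [DecidableEq lam] {M : Mark X A κ} {W : World M} {L : ML M lam} {Λ : Lns W L}
  {A' h : Type} [Fintype A'] [DecidableEq A'] [Fintype h] {r n : ℕ} {J : Job Wi Λ A' h r n}
  {σ : Cel A'} {a : A'} {q₀ : Wi →₀ ℝ} {δ : ℝ}

theorem θ_rg {c : M.Cl} {y : J.Obc c} {ν : ℤ} {p : Prt A A' h} {b : Bp J c} {U : Type} [Fintype U]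
    {E : EC b p U δ} {x : Mod61.Pnt E.o r} {ψ : E.K} (H : RgC σ q₀ y ν E x ψ) (hy : Sol σ q₀ y) :
    b.θ p U x.t = y.s := funext fun a => by
  by_cases k : a ∈ p.V
  · exact (θ_V k).trans (H.rep.s ⟨a, k⟩)
  rw [θ_off k]
  cases e : σ a with
  | some v => exact (H.ov.1.1 a v e).trans (hy.cell.1 a v e).symm
  | none =>
    obtain ⟨z, h1, h2⟩ : ∃ z, J.hd a = some z ∧ z ∈ c.1 := by
      by_contra f
      exact k (H.V a e fun z h1 h2 => f ⟨z, h1, h2⟩)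
    obtain ⟨a1, k1, k2⟩ := H.pg.ok.inf σ H.pg.mem _ H.ov.1 z (H.ov.2.ge h2)
    obtain ⟨a2, k3, k4⟩ := H.pg.ok.inf σ H.pg.mem _ ⟨hy.cell.1, fun a _ => (hy.cell.2 a).2⟩ z
      (hy.inf.ge h2)
    obtain rfl := H.pg.ok.inj _ _ z k1 h1
    obtain rfl := H.pg.ok.inj _ _ z k3 h1
    exact k2.trans k4.symm

section dat
variable {U R : Type} [NormedAddCommGroup U] [NormedSpace ℝ U] [NormedAddCommGroup R]
  [NormedSpace ℝ R] (d : Dat J σ a U ℝ R)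

theorem isoZ_of {c₀ : ℝ} (hb : d.bZ = 0) (hz : d.dZ = drZ κ d.Y c₀)
    (iz : IzAt (J.xs d.x).N d.D 8 (d.β 0) δ c₀ d.bp d.mo) : d.IsoZ q₀ δ 8 := by
  intro α l τ q _ hq
  obtain ⟨S, Q, hS⟩ := cv_bd (Nfo63.cv_q (J.xs d.x) hq)
  obtain ⟨K, ρ, b, h0, H⟩ := iz (Tc σ a) U R h r n (min r 1) d.cm S Q
  refine ⟨K, ρ, b, h0, hS.mono fun i hi w hw hs p _ => ?_⟩
  have e : zS d.D (Tc σ a) U R (d.β 0) c₀ (nl (τ i) / 2 - d.R0) d.bp d.mo = d.Z (τ i) := by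
    simp only [zS, Dat.Z, Dat.β, hb, hz]
    congr 1
    ext1 i; ext1 z; simp
  have := H _ hi.1 hi.2 (nl (τ i) / 2 - d.R0)
  rw [e] at this
  exact this w hw hs p

variable (dS : Option κ → (W.Z (J.cf a)).M → ℝ) (c₀ : ℝ) (bp : d.Y × ℝ → ℝ)
  (mo : d.Y × ℝ → CL (Cf (Option κ) (Fin d.N)) ℝ)

/-- the drift and the peak rows -/
def upd : Dat J σ a U ℝ R := { d with dS := dS, dZ := drZ κ d.Y c₀, bp := bp, mo := mo }

variable {d dS c₀ bp mo}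

theorem ok_upd (H : d.OK q₀ δ) (h1 : ∀ i, d.FS.F0.Cb (dS i) ∧ d.Lit (dS i) (drZ κ d.Y c₀ i))
    (hb : Sm (IC (J.xs d.x).Y.I) bp ∧ HasCompactSupport bp)
    (hm : Sm (IC (J.xs d.x).Y.I) mo ∧ HasCompactSupport mo)
    (h0 : ∀ z : d.Y × ℝ, 1 ≤ |z.2| → bp z = 0 ∧ mo z = 0) : (upd d dS c₀ bp mo).OK q₀ δ :=
  { H with
    okS := { H.okS with cd := fun i => (h1 i).1 }
    okZ := fun τ => { H.okZ τ with
      cd := fun i => by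
        cases i with
        | none => exact Sob92.Cb_smul (Sob92.Cb_const c₀) (Dec35.cb_snd (D := d.D) Gb50.sm_drho)
        | some i => exact Sob92.Cb_const (c₀ * 0)
      bp := hb
      mo := hm }
    ld := fun i => (h1 i).2
    bp := h0 }

end dat

variable (J) in
/-- **LEAF ASM-Y0** -/
theorem asmY : AsmY J := by
  intro hN hI hG hK hD hC hY hJ hW hΛ a x hd ⟨C⟩
  obtain ⟨δN, d0, hK⟩ := hK hJ x ⟨C⟩
  have o := (hJ.xs x).1.yd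
  have pc : PreconnectedSpace (J.xs x).Y.M :=
    ⟨(J.g x).symm.surjective.range_eq ▸ isPreconnected_range (J.g x).symm.continuous⟩
  have iz := fun i => hI _ _ _ o (hJ.xs x).2 (J.xs x).Y.dim pc _ (C.crit i) (C.nd i)
  choose! δI i0 iz using iz
  have le : ∀ {c : ℝ}, 0 < c → ∀ᶠ t in 𝓝[>] (0 : ℝ), t ≤ c := fun hc =>
    (ge_mem_nhds hc).filter_mono nhdsWithin_le_nhds
  obtain ⟨δ₁, e0, e1, e2, e3, e4, e5⟩ := (eventually_mem_nhdsWithin.and ((le d0).and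
    ((le (by positivity : (0 : ℝ) < 1 / 32)).and ((le (div_pos Cht98.dl0_pos four_pos)).and
    ((eventually_all.2 fun z => le (div_pos (hJ.xs z).2.δ0 (by positivity : (0 : ℝ) < 5))).and
    (eventually_all.2 fun i : {i // ¬(J.xs x).D.Fx (C.β i)} => le (i0 i.1 i.2))))))).exists
  refine ⟨δ₁, e0, fun n₀ σ hσ ha => hK.mono fun Adm hA q₀ hq y hy ht top unc fa fr int => ?_⟩
  obtain ⟨δ, hδ, fr, p, b, E, z, ψ, b0, rg⟩ := fr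
  have hx : x ∈ cylW (J.cf a) := fa.2.1 hd
  obtain ⟨d, iso, nul, H, R6, rfl, ev⟩ := hN σ a x q₀ δ y ⟨hJ, hW, hΛ, hσ,
    (Finset.mem_filter.1 ha).2.1, hd, hx.2, unc, hy, ht, top, int, hδ.1,
    ⟨by linarith [hδ.2], fun z => by linarith [hδ.2, e4 z, (hJ.xs z).2.δ0]⟩,
    fun b k => (fr x hx b).2.2 k, hδ.2.trans e2⟩ ⟨Fin 0 → ℝ⟩ ⟨ℝ⟩ ⟨Fin 0 → ℝ⟩
  have ad : ∀ {β}, (J.xs d.x).N.Crit d.D β → d.D.Adm β := fun k => ⟨k.sol.toAdm, k.tmp⟩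
  have c0 := H.crit.self_of_nhds
  have a0 := ad c0
  have a1 := ad (hy.crit _ hx false)
  have nd := nd_iso o (hJ.xs _).2 a1 a0 ev (fr _ hx false).1
  have nf : ¬d.D.Fx (d.β 0) := fun k => (fr _ hx false).2.1 (fx_iso o a0 a1 (eqv_symm o a1 a0 ev) k)
  obtain ⟨i, ei⟩ := C.cov _ c0
  have ai := ad (C.crit i)
  replace ei := eqv_symm o a0 ai ei
  have ni : ¬d.D.Fx (C.β i) := fun k => nf (fx_iso o ai a0 ei k)
  obtain ⟨bp, mo, hb, hm, h0, iz⟩ := iz i ni δ ⟨hδ.1, hδ.2.trans (e5 ⟨i, ni⟩)⟩ (-2 * δ)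
    (by rw [neg_mul, abs_neg, abs_of_pos (by linarith [hδ.1])]) _ a0 ei
  have eθ := (θ_rg rg hy).trans iso.1.symm
  obtain ⟨cmp, dS⟩ := hC σ a ⟨Fin 0 → ℝ⟩ ⟨ℝ⟩ ⟨Fin 0 → ℝ⟩ d q₀ δ p Empty b z.t H R6 rg.pg rg.ov z.ht eθ
  have H' := ok_upd H dS hb hm h0
  have g := hG σ a ⟨Fin 0 → ℝ⟩ ⟨ℝ⟩ ⟨Fin 0 → ℝ⟩ _ q₀ δ H'
  have k := hA q₀ hq δ ⟨hδ.1, hδ.2.trans e1⟩ σ a (upd d (dSY b p Empty δ z.t) (-2 * δ) bp mo) rfl H'
    R6 nd nf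
  exact ⟨⟨Fin 0 → ℝ⟩, ⟨ℝ⟩, ⟨Fin 0 → ℝ⟩, upd d (dSY b p Empty δ z.t) (-2 * δ) bp mo, δ, iso, H',
    hY σ a (upd d (dSY b p Empty δ z.t) (-2 * δ) bp mo) q₀ δ y p b E z ψ H' g.oke g.lipS iso hy b0
      rg eθ cmp nul.bS rfl, isoZ_of _ nul.bZ rfl iz,
    hD σ a ⟨Fin 0 → ℝ⟩ ⟨ℝ⟩ ⟨Fin 0 → ℝ⟩ _ q₀ δ H' g k.1 k.2, by simp⟩

end Crest.Agent.X212.Gnk23
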