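import Crest.Agent.X212.Pte3.Tl1
import Crest.Agent.X212.Sym93.Trp
import Crest.Agent.X212.St29.Id

/-!
# Row 212, GL-WALL-PSC, MVL (helper23), part 2: the two moving limits are matched
-/

set_option autoImplicit false
set_option linter.unusedSectionVars false
noncomputable section
open Set Function Filter Topology MeasureTheory
open scoped ContDiff Manifold InnerProductSpace

namespace Crest.Agent.X212.Gnk23
open An Wz78 Pj41 Nd18 Cyf70 Clr59
open Rdc90 (Bs Har bh)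
open Rf65 (Psc ParY dz PY)
open Eqv71 (cj ad0 ceq_symm_id)

variable {E3 : Type} [NormedAddCommGroup E3] [NormedSpace ℝ E3] [FiniteDimensional ℝ E3]
  [MeasurableSpace E3] [BorelSpace E3]
  {H3 : Type} [TopologicalSpace H3] {I3 : ModelWithCorners ℝ E3 H3} [I3.Boundaryless]
  {Y : Type} [TopologicalSpace Y] [ChartedSpace H3 Y] [IsManifold I3 ∞ Y] [T2Space Y]
  [MeasurableSpace Y] [BorelSpace Y] [SecondCountableTopology Y] [CompactSpace Y]
  {κ : Type} [Fintype κ] {lam : Type} [Fintype lam] {D : YD I3 Y κ lam} {β γ : YC Y κ lam}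
  {ρ : ℝ}

theorem psc_one {V : Type} [Fintype V] [DecidableEq V] [Subsingleton V] {ν : V → κ → Y → ℝ}
    (S : Psc D.F ν ρ) (v : V) : Psc D.F (fun _ : Fin 1 => ν v) ρ :=
  ⟨S.pos, fun _ => S.sm v, fun _ => S.P v, fun _ => S.par v, fun i j x => by
    rw [S.ort v v, if_pos rfl, if_pos (Subsingleton.elim i j)], fun b l x => by
    rw [S.ric, Fintype.sum_subsingleton _ v, Fin.sum_univ_one], S.sc⟩

theorem stb_on {g : Y → CL β.m.V γ.m.V} {ξ : Circle} (h : Bki64.Stb D β γ g ξ) (hD : D.OK)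
    (hβ : D.Adm β) (hγ : D.Adm γ) : Mod61.EqOn D.B D.Z univ (cy β) (cy γ) (fun x => g x.1) ξ :=
  ⟨h.iso.mEq (OK.on hβ.adm.ok _) (OK.on hγ.adm.ok _),
    (par0_iff ((IsConn.on hγ.adm.conn _).proj' hD.B)).1 fun x _ a => h.par a x,
    fun x _ => (h.Φ x.1).symm, Subsingleton.elim _ _⟩

theorem sh_alg {N N' : Type} [NormedAddCommGroup N] [NormedSpace ℝ N] [NormedAddCommGroup N']
    [NormedSpace ℝ N'] {T G : N →L[ℝ] N'} {W X : N →L[ℝ] N} {W' X' : N' →L[ℝ] N'} {l s a : ℝ}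
    (h : T + (W' + (l * a) • X') ∘L G - G ∘L W = 0) (k : X' ∘L G = G ∘L X) :
    T + (W' + ((l + s) * a) • X') ∘L G - G ∘L (W + (s * a) • X) = 0 := by
  rw [← h]
  simp only [ContinuousLinearMap.add_comp, ContinuousLinearMap.comp_add,
    ContinuousLinearMap.smul_comp, ContinuousLinearMap.comp_smul, k]
  module

variable {ν : κ → Y → ℝ} (S : Psc D.F (fun _ : Fin 1 => ν) ρ) (hγ : Bs D γ)
include S hγ

/-- an equivalence with a point of a line of flat connections extends along the line -/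
theorem shift (hβ : Bs D β) {η : κ → Y → β.m.A} (hη : Har D β η) (h0 : η ≠ 0) {l : ℝ}
    {G : Y × ℝ → CL γ.m.V β.m.V} {ζ : Circle}
    (e : Mod61.EqOn D.B D.Z univ (cy γ) (cy (bh β (l • η) 0)) G ζ) :
    ∃ ξ, ParY D γ ξ ∧ ξ ≠ 0 ∧ (∀ k y, cj (G (y, 0)) (ν k y • ξ y) = η k y) ∧
      ∀ s : ℝ, D.Eqv (bh γ (s • tY ν ξ) 0) (bh β ((l + s) • η) 0) := by
  obtain ⟨ξ, p, rfl⟩ := (har_iff S hβ).1 hη
  have b := fun s => bs_tw S hβ p s
  have hD := hγ.ok
  let ξ' : Y → γ.m.A := fun y => cj (trn (G (y, 0))) (ξ y)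
  have q := Sym93.par_tr hD (b l).adm hγ.adm
    (ceq_symm_id hD.B hD.G isOpen_univ (ad0 hγ.adm.adm) (ad0 (b l).adm.adm) e) (Sym93.par_tw p l)
  have p' : ParY D γ ξ' := q.1
  have n : ξ' = 0 → ξ = 0 := q.2
  have st : ∀ x, G x = G (x.1, 0) := congrFun (Pte3.inv_eqv hD hγ.adm (b l).adm e)
  have u : ∀ x, G x ∘L trn (G x) = β.m.p x.1 := fun x => e.m.uu' x trivial
  have c : ∀ y, cj (G (y, 0)) (ξ' y) = ξ y := fun y => by
    rw [Eqv71.cj_cj, u]
    exact Eqv71.ME.cj_p (p.mem y)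
  refine ⟨ξ', p', fun k => h0 (by rw [n k, map_zero]), fun k y => by rw [map_smul, c]; rfl,
    fun s => ⟨G, 1, ⟨e.m.su, e.m.uu, e.m.uu', e.m.J, e.m.ρ, e.m.j⟩,
      (par0_iff ((IsConn.on (b _).adm.adm.conn _).proj' hD.B)).1 fun x _ a => ?_, fun x _ => ?_,
      Subsingleton.elim _ _⟩⟩
  · have k := (par0_iff ((IsConn.on (b l).adm.adm.conn _).proj' hD.B)).2 e.W x trivial a
    have k1 : opL (ξ x.1) ∘L G x = G x ∘L opL (ξ' x.1) := by
      rw [Eqv71.opL_cj, ← st x, Eqv71.trn_trn, ← ContinuousLinearMap.comp_assoc, u,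
        ← ContinuousLinearMap.comp_assoc]
      exact congrArg (· ∘L G x) (g_p (p.mem x.1)).symm
    rw [bh_W] at k
    rw [bh_W, bh_W]
    exact sh_alg k k1
  · exact ((b _).zr x.1).trans (((congrArg _ ((congrArg _ ((bs_tw S hγ p' s).zr x.1)).trans
      (map_zero _))).trans (Mod61.cs_zero _ _)).symm)

/-- **matching** -/
theorem mat [ConnectedSpace Y] (h1 : dz D γ = 1) (sl : ∀ η, Har D γ η → ∃ ε > 0, ∀ s t : ℝ, |s| ≤ ε → |t| ≤ ε →
      D.Eqv (bh γ (s • η) 0) (bh γ (t • η) 0) → s • η = t • η)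
    {β : Bool → YC Y κ lam} {η : ∀ i, κ → Y → (β i).m.A} (hβ : ∀ i, Bs D (β i) ∧
      Har D (β i) (η i) ∧ η i ≠ 0) {l : ℝ} {G : ∀ i, Y × ℝ → CL γ.m.V (β i).m.V} {ζ : Bool → Circle}
    (e : ∀ i, Mod61.EqOn D.B D.Z univ (cy γ) (cy (bh (β i) (l • η i) 0)) (G i) (ζ i))
    (mt : ∀ s : ℝ, D.Eqv (bh (β false) (s • η false) 0) (bh (β true) (s • η true) 0)) :
    ∃ ξ, ParY D γ ξ ∧ ξ ≠ 0 ∧ ∀ i k y, cj (G i (y, 0)) (ν k y • ξ y) = η i k y := by
  choose ξ p n c q using fun i => shift S hγ (hβ i).1 (hβ i).2.1 (hβ i).2.2 (e i)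
  obtain ⟨a, ha⟩ := St29.Id.dz1 h1 (p false) (n false) (p true)
  obtain ⟨ε, ε0, k⟩ := sl _ ((har_iff S hγ).2 ⟨_, p false, rfl⟩)
  have b : ∀ i (s : ℝ), Bs D (bh (β i) (s • η i) 0) := fun i s => by
    obtain ⟨ξ, p, e⟩ := (har_iff S (hβ i).1).1 (hβ i).2.1
    exact e ▸ bs_tw S (hβ i).1 p s
  have a0 : 0 < |a| + 1 := by positivity
  have s0 := div_pos ε0 a0
  have bt := bs_tw S hγ (p true) (ε / (|a| + 1))
  have := k _ (ε / (|a| + 1) * a) (by
    rw [abs_of_pos s0]; exact div_le_self ε0.le (le_add_of_nonneg_left (abs_nonneg a))) (by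
    rw [abs_mul, abs_of_pos s0, div_mul_eq_mul_div, div_le_iff₀ a0]; nlinarith) (by
    rw [mul_smul, ← map_smul (tY ν) a, ha]
    exact Pte3.eqv_trans (bs_tw S hγ (p false) _) (b true _) bt (Pte3.eqv_trans
      (bs_tw S hγ (p false) _) (b false _) (b true _) (q false _) (mt _))
      (Pnt66.eqv_symm hγ.ok bt.adm (b true _).adm (q true _)))
  rw [mul_smul, ← map_smul (tY ν) a, ha] at this
  have e' := tY_inj S (smul_right_injective _ s0.ne' this)
  exact ⟨_, p false, n false, fun i => by cases i; exacts [c false, e' ▸ c true]⟩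

end Crest.Agent.X212.Gnk23
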