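import Crest.Agent.X212.Gnk23.MvF
import Crest.Agent.X212.Gnk23.MvY
import Crest.Agent.X212.Wal14.Defs
import Crest.Agent.X212.Pte3.Th
import Crest.Agent.X212.Sm25.SlcA

/-!
# Row 212, GL-WALL-PSC, MVL (helper23): the moving limits agree
-/

set_option autoImplicit false
set_option linter.unusedSectionVars false
noncomputable section
open scoped Manifold ContDiff Topology InnerProductSpace
open MeasureTheory Set Function Filter Real

namespace Crest.Agent.X212.Gnk23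
open An An.Job M Nd18 Mod61 Gj67 Rf65 Pte3 Nk89 Eqv71 Wal14 End3
open Rd78 (up)

theorem cj_v {a b c : Type} [Fintype a] [Fintype b] [Fintype c] [DecidableEq a] [DecidableEq b]
    [DecidableEq c] {g : CL (Eu a) (Eu c)} {v : CL (Eu b) (Eu c)} {p : En a} {q : En c}
    (h : Pj41.CIso g p q) (hv : v ∘L trn v = q) (ξ : HS a) : cj v (cj (trn v ∘L g) ξ) = cj g ξ := by
  rw [cj_cj, ← ContinuousLinearMap.comp_assoc, hv, ← h.tgt, ContinuousLinearMap.comp_assoc, h.src,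
    h.idem]

variable {Wi : Type} {X : Mf 4} {A κ lam : Type} [Fintype A] [Fintype κ] [Fintype lam]
  [DecidableEq lam] {M : Mark X A κ} {W : World M} {L : ML M lam} {Λ : Lns W L}
  {A' h : Type} [Fintype A'] [DecidableEq A'] [Fintype h] {r n : ℕ}
  {J : Job Wi Λ A' h r n}

section
variable {σ : Cel A'} {a : A'} {V : Type} [Fintype V] [DecidableEq V] {d : DV J σ a V} {δ : ℝ}
  {p : Prt A A' h} {b : Bp J (J.cf a)} {E : EC b p V δ} (C : CS σ E) (hx : d.x ∈ cylW (J.cf a))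
include C

theorem sg_en (i : Ed (J.cf a)) : (C.ee.P i).sg = -pm i.2 := by
  obtain ⟨_, _ | _⟩ := i
  exacts [show (1 : ℝ) = -(-1) from (neg_neg _).symm, rfl]

theorem nk_eq (s : Bool) {z : d.Y × ℝ} (hz : E.R < -pm s * z.2) :
    (en E (⟨_, hx⟩, s)).K.ψ z = (d.KS s).ψ z :=
  ((C.ok.end_eq _ (d.hb s)).ψ (mem_src (C.ee.okP (⟨_, hx⟩, s)) C.eo.R5
    ((sg_en C _).symm ▸ hz))).symm

theorem lit_en {N : Type} {f : _ → N} {g : d.Y → N} (l : d.Lit f fun z => g z.1) (s : Bool)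
    {z : d.Y × ℝ} (hz : max d.R0 E.R < -pm s * z.2) : f ((en E (⟨_, hx⟩, s)).K.ψ z) = g z.1 :=
  (congrArg f (nk_eq C hx s ((le_max_right _ _).trans_lt hz))).trans
    (l s z.1 z.2 (pm s) ((le_max_left _ _).trans_lt hz) (by cases s <;> simp [pm]))

omit C in
theorem bV_one [Subsingleton V] {ν : V → κ → d.Y → ℝ} (ξ : d.Y → HS (Fin d.N)) (v : V) (z : d.Y)
    (t : V → ℝ) (i : Option κ) : bV d ν ξ z t i = t v • cν ν (some v) i (z, 0) • ξ z := by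
  rw [bV, Fintype.sum_subsingleton _ v]; rfl

theorem dec_en {N : Type} [NormedAddCommGroup N] [NormedSpace ℝ N] {f : _ → N} {g g' : d.Y → N}
    {δ' : ℝ} (l : d.Dec δ' f g) (e : ∀ y, g' y = g y) (s : Bool) (w : List (Option κ)) :
    ∃ c, ∀ z : d.Y × ℝ, max d.R0 E.R < -pm s * z.2 → ‖d.D.Z.Dw w (fun z =>
      f ((en E (⟨_, hx⟩, s)).K.ψ z) - g' z.1) z‖ ≤ c * exp (-δ' * (-pm s * z.2)) :=
  (l w).imp fun c hc z hz => by
    have k : |z.2| = -pm s * z.2 := by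
      have := (C.ee.R0.trans_le C.eo.R5).trans ((le_max_right _ _).trans_lt hz)
      cases s <;> simp [pm] at this ⊢ <;> linarith
    rw [← k, Prm93.Dw_congr w (v := fun z => f ((d.KS s).ψ z) - g z.1)
      (((isOpen_lt continuous_const (continuous_const.mul continuous_snd)).eventually_mem
        ((le_max_right _ _).trans_lt hz)).mono fun y hy => by rw [nk_eq C hx s hy, e])]
    exact hc s z ((le_max_left _ _).trans_lt hz)

end

/-- **MVL** -/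
theorem mvL : MvL J := fun _ σ a V _ _ d q₀ δ ν ξ₀ y p b E x ψ P iso H hθ => by
  have ok := P.ok
  have C := H.cs
  have ad := ad0 H.sol.sol.toAdm
  have ad₀ := ad0 ok.sol.sol.toAdm
  obtain ⟨u₂, ζ₂, e₂, f₂⟩ := H.ch.rep.e
  obtain ⟨es, u₁, ζ₁, e₁, f₁⟩ := iso
  have ad' : Ad0 y.x (J.B _) (J.G _ (b.θ p V x.t)) := by rw [hθ, es]; exact ad
  have e := ceq_trans_id C.F.B (C.F.G _ x.ht) C.cl.2 (by rw [hθ]; exact ad₀ :
    Ad0 d.y.x (J.B _) (J.G _ (b.θ p V x.t))) ad' (x.ad0 C.F) (by rw [hθ, H.uP]; exact e₁ :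
      EqOn (J.B _) (J.G _ (b.θ p V x.t)).F (W.un _ p.P) d.y.x y.x u₁ ζ₁) e₂
  have f : ∀ i : p.H, (J.cut _ i).Eqv (J.cut _ i) (J.B _) (J.B _) (fun z => u₂ z ∘L u₁ z)
      (d.y.ψ i) (ψ i) := fun i => Cnt93.eqv_trans (φ := id) rfl
    (e₂.m.J _ (H.uP.ge (mem_univ _))) E.o.ok.Jsq (f₁ ⟨i, ok.unc.ge (mem_univ _)⟩) (f₂ i)
  have hx : d.x ∈ cylW (J.cf a) := H.cw.ge rfl
  have hi : ∀ i : Ed (J.cf a), d.x = i.1 := fun i => (H.cw.le i.1.2).symm
  have all : ∀ {Q : Ed (J.cf a) → Prop}, (∀ s, Q (⟨_, hx⟩, s)) → ∀ i, Q i := fun k i => by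
    obtain ⟨⟨x', hx'⟩, s⟩ := i
    obtain rfl : d.x = x' := hi (⟨x', hx'⟩, s)
    exact k s
  have sg := sg_en C
  let γ₀ : YL d.Y κ (lam ⊕ lam) d.N := ⟨d.pZ, d.ρZ, d.jZ, (d.β 0).W, d.ΦZ⟩
  let γ : ∀ i : Ed (J.cf a), YL (J.xs i.1).Y.M κ (lam ⊕ lam) d.N := fun i => hi i ▸ γ₀
  obtain ⟨δ', hδ, dW, dΦ⟩ := ok.dec
  have as : ∀ i, As (C.ee.P i) d.y.x (max d.R0 E.R) δ' (γ i) := all fun s =>
    ⟨P.bs.adm, fun z hz => by
      rw [sg] at hz
      exact ⟨lit_en C hx ok.lp s hz, fun i => lit_en C hx (ok.lρ i) s hz, lit_en C hx ok.lj s hz⟩,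
    fun i w => by
      rw [sg]
      exact dec_en C hx (dW i) (fun y => by
        show d.AZ i y + opL (d.bZ y 0 i) = _
        simp) s w,
    fun w => by
      rw [sg]
      exact dec_en C hx dΦ (fun _ => rfl) s w⟩
  obtain ⟨g, ζ, w', g1, cw, cw', hn, ew⟩ := asym C.ee C.lit (le_max_right d.R0 _)
    (by linarith [ok.δ0] : δ < δ') H.uP ad₀.ok ad₀.conn.cc.sm ad₀.sm e as
  have en' : ∀ s, p.En d.x s := fun s => ⟨hp d.x s, by cases s <;> simp [H.P], if_pos rfl⟩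
  have key : ∃ ξ, ParY d.D (d.β 0) ξ ∧ ξ ≠ 0 ∧ ∀ s t z i, cj (g (⟨_, hx⟩, s) z) (bV d ν ξ z t.2 i) =
      Pnt66.lmL p (E.μ (⟨_, hx⟩, s)) t • cj (E.v (⟨_, hx⟩, s) (z, 0))
        (up (E.β (⟨_, hx⟩, s)) (E.η (⟨_, hx⟩, s)) (z, 0) i) := by
    rcases isEmpty_or_nonempty V with hV | ⟨⟨v⟩⟩
    · refine ⟨ξ₀, P.par, P.ne, fun s t z i => ?_⟩
      rw [show E.μ (⟨_, hx⟩, s) = none from Option.eq_none_iff_forall_ne_some.2 (isEmptyElim ·)]
      simp [bV, Pnt66.lmL]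
    have := P.sub
    have := J.conn_xs d.x
    obtain ⟨ρ, S⟩ := P.psc
    have S1 := psc_one S v
    have hD := P.bs.ok
    have lm : ∀ i t, E.lm i t = t.2 v := fun i t => by rw [EC.lm, H.mu v i]; rfl
    have har := fun s => C.eo.har (⟨_, hx⟩, s) (en' s) (by rw [H.mu v]; exact Option.some_ne_none v)
    have py : PY d.D 1 := ⟨le_rfl, P.ps, _, ρ, S1⟩
    have mv : ∀ s, EqOn d.D.B d.D.Z univ (cy (Rdc90.bh (E.β (⟨_, hx⟩, s)) (x.t.2 v • E.η (⟨_, hx⟩, s)) 0))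
        (cy ((en E (⟨_, hx⟩, s)).sl E.o (E.R + 1) x.t)) (E.v (⟨_, hx⟩, s)) 1 := fun s => by
      rw [← lm (⟨_, hx⟩, s)]; exact C.eo.mov (⟨_, hx⟩, s) (en' s) _ x.ht
    have a1 := fun s => End14.adm_sl C.F (C.ee.okP (⟨_, hx⟩, s)) x.ht C.eo.R5 (C.eo.lit _)
    have a2 := fun s => (bs_har py (har s).1 (Mon62.har_smul (har s).2.1 (x.t.2 v))).adm
    have e1 := fun s => stb_on (g1 (⟨_, hx⟩, s)) hD P.bs.adm (a1 s)
    obtain ⟨ξ, k1, k2, k3⟩ := mat S1 P.bs P.dz (fun _ => Sm25.Slc.slc0 py P.bs P.dz) har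
      (fun s => ceq_trans_id hD.B hD.G isOpen_univ (ad0 P.bs.adm.adm) (ad0 (a1 s).adm)
        (ad0 (a2 s).adm) (e1 s) (ceq_symm_id hD.B hD.G isOpen_univ (ad0 (a2 s).adm) (ad0 (a1 s).adm)
          (mv s))) fun l => by
      have := H.ch.mt ⟨_, hx⟩ ((H.mu v _).trans (H.mu v _).symm)
        (by rw [H.mu v]; exact Option.some_ne_none v) (0, fun _ => l)
      rwa [EC.lim, EC.lim, lm, lm] at this
    refine ⟨ξ, k1, k2, fun s t z i => ?_⟩
    have k4 : cj (g (⟨_, hx⟩, s) z) (cν ν (some v) i (z, 0) • ξ z) = cj (E.v (⟨_, hx⟩, s) (z, 0))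
        (up (E.β (⟨_, hx⟩, s)) (E.η (⟨_, hx⟩, s)) (z, 0) i) := by
      cases i with
      | none => exact (congrArg _ (zero_smul _ _)).trans ((map_zero _).trans (map_zero _).symm)
      | some k =>
        exact (cj_v ((g1 (⟨_, hx⟩, s)).iso.iso (z, 0) trivial) ((mv s).m.uu' (z, 0) trivial)
          _).symm.trans (congrArg _ (k3 s k z))
    rw [H.mu v, ← k4]
    exact (congrArg _ (bV_one (d := d) ξ v z t.2 i)).trans ((cj (g (⟨_, hx⟩, s) z)).map_smul _ _)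
  obtain ⟨ξ, k1, k2, k3⟩ := key
  refine ⟨ξ, k1, k2, fun bS cb lb => ⟨_, _, H.uP ▸ e, f, fun t i => ?_⟩⟩
  have hL : C.ee.R ≤ max d.R0 E.R := C.eo.R5.trans (le_max_right _ _)
  have pt : ∀ s y u, max d.R0 E.R < u → bS ((C.ee.P (⟨_, hx⟩, s)).pt u y) = bV d ν ξ y :=
    fun s y u hu => lit_en C hx lb s (z := (y, _)) (by rwa [← sg (⟨_, hx⟩, s), sg_sq])
  have cb' := Sob92.Cb_clm (Grp76.pj _ i ∘L ContinuousLinearMap.apply ℝ _ t.2) (cb_lit C.ee hL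
    (Grp76.cb_sm cb) (all fun s y u hu => (pt s y u hu).trans (pt s y _ (lt_add_one _)).symm))
  refine nice_cj C.ee (hL.trans (lt_add_one _).le) cw cw' hn cb'
    ((Grp76.pj _ i).contMDiff.comp (Grp76.cb_sm (E.o.sb.cb t trivial))) (all fun s z hz => ?_)
  · have hz' := (lt_add_one _).trans hz
    rw [ew _ z hz, b_lin C.ee C.lit (⟨_, hx⟩, s) x.ht (l := Pnt66.lmL p (E.μ (⟨_, hx⟩, s)))
      (fun t ht => by rw [Pnt66.lmL_apply]; exact C.eo.mov (⟨_, hx⟩, s) (en' s) t ht) t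
      ((le_max_right _ _).trans_lt hz') i]
    rw [sg] at hz'
    have k : bS ((C.ee.P (⟨_, hx⟩, s)).K.ψ z) = bV d ν ξ z.1 := lit_en C hx lb s hz'
    rw [k]
    exact k3 s t z.1 i

end Crest.Agent.X212.Gnk23
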