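import Crest.Agent.X212.Enr44.Defs
import Crest.Agent.X212.Gl9.Main

/-! # Row 212, GEO engine (helper23): the frames `PrR`, `PsQ` -/

set_option autoImplicit false
noncomputable section
open Set Function
open scoped ContDiff Manifold InnerProductSpace

namespace Crest.Agent.X212.Gnk23
open An Met55 Cyl58 Gl9 Geo28 Sw87.Mo
open Rod53 (E3 isOE_shell)

theorem pad_inr {Y : M.Mf 3} (e : Fin 6 → VF Y.I Y.M) (j : Fin 8) (y : Y.M) :
    pad (κ := κ0) Sum.inl e (.inr j) y = 0 := congrFun (pad_of_notMem e (by simp)) y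

theorem six (Y : M.Mf 3) [CompactSpace Y.M] : ∃ r : Fin 6 → VF Y.I Y.M, ∀ y, FAt r y :=
  let ⟨_, f, hf⟩ := exists_frame (I := Y.I) (M := Y.M)
  Ms48.exists_fields (m := 6) (by simp [Y.dim]) f hf

theorem psQ : Enr44.PsQ := fun A => by
  by_cases k : Nonempty (Bor5.T.Sph A.toO3)
  · obtain ⟨S⟩ := k
    obtain ⟨e, h1, h2⟩ := exists_rc S.ld S.surj A.Y.dim fun y y' k =>
      let ⟨B, k1, k2⟩ := S.fib y y' k; ⟨B, k1.symm, k2⟩
    have he := fun y => (h1 y).pad (g := (Sum.inl : Fin 6 → κ0)) Sum.inl_injective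
    have p := (gp A.Y _ S.ld S.surj κ0 (rFr _ he)
      (Rd.co h2 fun p => co_pad Sum.inl_injective (h1 p).sp)).cyl
    exact ⟨_, he, pad_inr e, fun _ x => p.pos.trans_le (p.sc x)⟩
  · obtain ⟨e, h1⟩ := six A.Y
    exact ⟨_, fun y => (h1 y).pad Sum.inl_injective, pad_inr e, fun h => (k h).elim⟩

variable (R : R3)

/-- the product structure -/
def ψR : R.Y.M ≃ₘ^∞⟮R.Y.I, (𝓡 1).prod (𝓡 2)⟯ Circle × S2 :=
  R.φ.trans (Diffeomorph.prodComm _ _ _ _ _)

/-- the universal covering -/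
def cv : ℝ × S2 → R.Y.M := (ψR R).symm ∘ cR

theorem ld_cv : IsLocalDiffeomorph (𝓘(ℝ, ℝ).prod (𝓡 2)) R.Y.I ∞ (cv R) :=
  Glue52.ld_comp (ψR R).symm.isLocalDiffeomorph ld_cR

theorem cv_surj : Surjective (cv R) := (ψR R).symm.surjective.comp cR_surj

theorem ψ_cv (y : ℝ × S2) : ψR R (cv R y) = cR y := (ψR R).apply_symm_apply _

theorem pr_of {κ : Type} [Fintype κ] (F : An.Fr R.Y.I R.Y.M κ)
    (h : Rd (𝓘(ℝ, ℝ).prod (𝓡 2)) _ (cv R) tR (fun y => pR (tR y)) F.e) :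
    Rf65.PR F (Enr44.tR R) (Enr44.pR R) := by
  have e1 : ∀ y, Enr44.tR R (cv R y) = (cR y).1 := fun y => congrArg Prod.fst (ψ_cv R y)
  have e2 : ∀ y, Enr44.pR R (cv R y) = y.2 := fun y => congrArg (fun z => (z.2 : E3)) (ψ_cv R y)
  have key : ∀ y : ℝ × S2, ∃ X : κ → VR, (∀ v w, ∑ k, ⟪v, X k⟫_ℝ * ⟪w, X k⟫_ℝ =
      ⟪v, w⟫_ℝ - ⟪v, pR (tR y)⟫_ℝ * ⟪w, pR (tR y)⟫_ℝ) ∧
      (∀ k, F.D k (fun y => (Enr44.tR R y : ℂ)) (cv R y) = (X k).fst • (Complex.I * (cR y).1)) ∧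
      ∀ k, F.D k (Enr44.pR R) (cv R y) = (X k).snd := fun y => by
    have d := (sm_tR y).mdifferentiableAt (by simp)
    have c := (ld_cv R y).contMDiffAt.mdifferentiableAt (by simp)
    refine ⟨_, h y, fun k => ?_, fun k => ?_⟩
    · refine (dv_rel c (pbv_rel (ld_cv R y) (F.e k)) (((Line51.contMDiff_coe _).comp _
        (contMDiffAt_snd.comp _ (R.φ.contMDiff _))).mdifferentiableAt (by simp))).symm.trans ?_
      have g := ((hasDerivAt_id y.1).ofReal_comp.mul_const Complex.I).cexp.hasFDerivAt.comp (tR y)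
        (WithLp.fstL 2 ℝ ℝ E3).hasFDerivAt
      refine Eq.trans (congrArg (Sob92.dv _ _ · y) (funext fun z => congrArg (fun t : Circle => (t : ℂ)) (e1 z)))
        ((Sob92.dv_comp d g).trans ?_)
      simp [cR, mul_comm]
    · refine (dv_rel c (pbv_rel (ld_cv R y) (F.e k)) (((contMDiff_coe_sphere (n := 2) _).comp _
        (contMDiffAt_fst.comp _ (R.φ.contMDiff _))).mdifferentiableAt (by simp))).symm.trans ?_
      exact (congrArg (Sob92.dv _ _ · y) (funext e2)).trans (Sob92.dv_clm (WithLp.sndL 2 ℝ ℝ E3) d)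
  refine ⟨fun y => norm_eq_of_mem_sphere (R.φ y).1,
    ((IsOE.id.prodMap (isOE_shell isOE_exp Real.exp_pos)).comp isOE_assoc).comp
      ((IsOE.of_diffeo (ψR R)).prodMap .id), fun z v hv => ?_, fun y v w => ?_, fun y v w => ?_,
    fun y v w => ?_⟩
  · obtain ⟨y, k⟩ := R.φ.surjective (⟨v, by simpa using hv⟩, z)
    exact ⟨y, congrArg Prod.snd k, congrArg (fun z => (z.1 : E3)) k⟩
  all_goals obtain ⟨y, rfl⟩ := cv_surj R y; obtain ⟨X, h1, h2, h3⟩ := key y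
  · have := h1 (WithLp.toLp 2 (⟪v, Complex.I * (cR y).1⟫_ℝ, 0)) (WithLp.toLp 2 (⟪w, Complex.I * (cR y).1⟫_ℝ, 0))
    have n := Circle.normSq_coe (cR y).1
    simp only [h2, e1, inner_smul_right]
    simp [pR, tR, mul_comm, Complex.normSq_apply] at this n ⊢
    linear_combination this + (v.re * w.re + v.im * w.im) * n
  · have := h1 (WithLp.toLp 2 (0, v)) (WithLp.toLp 2 (0, w))
    simp only [h3, e2]
    simpa [pR, tR] using this
  · have := h1 (WithLp.toLp 2 (⟪v, Complex.I * (cR y).1⟫_ℝ, 0)) (WithLp.toLp 2 (0, w))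
    simp only [h2, h3, inner_smul_right]
    simpa [pR, tR, mul_comm] using this

theorem prR : Enr44.PrR := fun R => by
  obtain ⟨r, hr⟩ := six R.Y
  obtain ⟨e, h1, h2⟩ := desc (ld_cv R) (cv_surj R) sm_tR hyp_tR (fun y y' e => ⟨.refl _ _, fun X => by
    have e : cR y = cR y' := (ψR R).symm.injective e
    obtain ⟨m, k⟩ := Circle.exp_eq_exp.1 (congrArg Prod.fst e).symm
    obtain rfl : y' = (y.1 + m * (2 * Real.pi), y.2) := Prod.ext k (congrArg Prod.snd e).symm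
    exact deck (ld_cv R) sm_tR (T := fun z => (z.1 + m * (2 * Real.pi), z.2))
      ((contMDiff_fst.add contMDiff_const).prodMk contMDiff_snd)
      (fun z => congrArg (ψR R).symm (by simp [cR, Prod.map])) (.id ℝ _)
      (t := WithLp.toLp 2 (m * (2 * Real.pi), 0)) (fun z => by simp [tR, ← WithLp.toLp_add]) X y⟩) hr
  have he := fun y => (h1 y).pad (g := (Sum.inl : Fin 6 → κ0)) Sum.inl_injective
  exact ⟨_, he, pad_inr e, pr_of R (rFr _ he) (h2.co fun p => co_pad Sum.inl_injective (h1 p).sp)⟩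

end Crest.Agent.X212.Gnk23
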