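import Crest.Agent.X212.Pte3.Tl1

/-!
# Row 212, GL-WALL-PSC, MVL (helper23), part 1: an equivalence is asymptotically static
-/

set_option autoImplicit false
set_option linter.unusedSectionVars false
noncomputable section
open scoped Manifold ContDiff Topology InnerProductSpace
open MeasureTheory Set Function Filter Real

namespace Crest.Agent.X212.Gnk23
open An An.Pre Sob92 Mod61 Nd18 Eqv71 Nk89 Cyf70 End3 End14 Pj41 Neck67 Bki64
open Grp76 (Nice hs_iff cb_sm)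

variable {E : Type} [NormedAddCommGroup E] [NormedSpace ℝ E] [FiniteDimensional ℝ E]
  [MeasurableSpace E] [BorelSpace E]
  {HM : Type} [TopologicalSpace HM] {I : ModelWithCorners ℝ E HM} [I.Boundaryless]
  {M : Type} [TopologicalSpace M] [ChartedSpace HM M] [IsManifold I ∞ M]
  [MeasurableSpace M] [T2Space M] [BorelSpace M] [SecondCountableTopology M]
  {κ : Type} [Fintype κ] {lam : Type} [Fintype lam]
  {T : Type} [NormedAddCommGroup T] [NormedSpace ℝ T]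
  {N : Type} [NormedAddCommGroup N] [NormedSpace ℝ N]
  {𝔉 : Fam I M (Option κ) lam T} {δ L R d : ℝ} {r : ℕ}

section cmp
variable {N' N'' : Type} [NormedAddCommGroup N'] [NormedSpace ℝ N'] [NormedAddCommGroup N'']
  [NormedSpace ℝ N''] {F : Pre I M (Option κ)} {f : M → N' →L[ℝ] N''} {g : M → N →L[ℝ] N'}

theorem nice_cl (hf : F.Cb f) (hg : Nice F g) : Nice F fun x => f x ∘L g x :=
  hg.bil (ContinuousLinearMap.compL ℝ N N' N'') hf

theorem nice_cr (hf : Nice F f) (hg : F.Cb g) : Nice F fun x => f x ∘L g x :=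
  hf.bil' (ContinuousLinearMap.compL ℝ N N' N'') hg

/-- `ξ ↦ ξ A - B ξ` -/
def mxL (A : N →L[ℝ] N) (B : N' →L[ℝ] N') : (N →L[ℝ] N') →L[ℝ] N →L[ℝ] N' :=
  (ContinuousLinearMap.compL ℝ N N N').flip A - ContinuousLinearMap.compL ℝ N N' N' B

theorem cb_mxL {A : M → N →L[ℝ] N} {B : M → N' →L[ℝ] N'} (hA : F.Cb A) (hB : F.Cb B) :
    F.Cb fun x => mxL (A x) (B x) := Cb_sub (Cb_clm _ hA) (Cb_clm _ hB)

theorem mxL_zero : mxL (0 : N →L[ℝ] N) (0 : N' →L[ℝ] N') = 0 := by simp [mxL]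

theorem mxL_alg (A : N →L[ℝ] N) (B : N' →L[ℝ] N') {D D' u u' : N →L[ℝ] N'}
    (h : D' + B ∘L u' - u' ∘L A = 0) : D - D' - mxL A B (u - u') = D + B ∘L u - u ∘L A := by
  rw [← sub_zero (_ - u ∘L A), ← h]
  show D - D' - ((u - u') ∘L A - B ∘L (u - u')) = _
  simp only [ContinuousLinearMap.comp_sub, ContinuousLinearMap.sub_comp]
  abel

theorem mxL_alg0 {A : N →L[ℝ] N} {B : N' →L[ℝ] N'} {D u : N →L[ℝ] N'}
    (h : D + B ∘L u - u ∘L A = 0) : D - mxL A B u = 0 := (sub_sub_eq_add_sub D _ _).trans h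

theorem cb_lin {f : M → N} (hf : Sm I f) {A : Option κ → M → N →L[ℝ] N} (hA : ∀ a, F.Cb (A a))
    (hB : ∀ a, F.Cb fun x => F.D a f x - A a x (f x)) {C : ℝ} (hC : ∀ x, ‖f x‖ ≤ C) : F.Cb f := by
  have s : Sm I fun x => ContinuousLinearMap.inl ℝ N ℝ (f x) := (ContinuousLinearMap.inl ℝ N ℝ).contMDiff.comp hf
  have := cb_of_ode (F := F) (v := fun x => ContinuousLinearMap.inl ℝ N ℝ (f x) + (0, 1))
    (fun x => Wz78.SA.md ((s.add contMDiff_const) x)) (fun a x => ?_) (fun a => Cb_comp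
      (Cb_const (.inl ℝ N ℝ)) (Cb_add (Cb_comp (hA a) (Cb_const (.fst ℝ N ℝ))) (Cb_clm
        (ContinuousLinearMap.smulRightL ℝ (N × ℝ) N (.snd ℝ N ℝ)) (hB a)))) (C := max C 1) fun x => by
      simpa [Prod.norm_def, -sup_le_iff] using max_le_max_right 1 (hC x)
  · simpa using Cb_clm (.fst ℝ N ℝ) this
  · refine (Wz78.dv_add' (s x) contMDiffAt_const).trans ?_
    rw [dv_const, dv_clm _ (Wz78.SA.md (hf x))]
    simp [Pre.D_def]

end cmp

/-- the limit of a configuration -/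
structure YL (Y κ lam : Type) [Fintype lam] (n : ℕ) where
  p : Y → En (Fin n)
  ρ : Option κ → Y → En (Fin n)
  j : Y → CL (Eu lam) (En (Fin n))
  A : Option κ → Y → En (Fin n)
  Φ : Y → Eu (Fin n)

/-- its configuration -/
abbrev YL.β {Y : Type} {n : ℕ} (γ : YL Y κ lam n) (J : En (Fin n)) : YC Y κ lam :=
  ⟨⟨n, J, γ.p, γ.ρ, γ.j⟩, γ.A, γ.Φ, 0⟩

/-- literal module, exponential convergence -/
structure As (P : End 𝔉) (c : Cfg M (Option κ) lam r) (L d : ℝ) (γ : YL P.Y.M κ lam c.m.N) :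
    Prop where
  adm : P.D.Adm (γ.β c.m.J)
  lit : ∀ z, L < P.sg * z.2 → c.m.p (P.K.ψ z) = γ.p z.1 ∧ (∀ i, c.m.ρ i (P.K.ψ z) = γ.ρ i z.1) ∧
    c.m.j (P.K.ψ z) = γ.j z.1
  A : ∀ i w, ∃ C, ∀ z, L < P.sg * z.2 →
    ‖P.D.Z.Dw w (fun z => c.W i (P.K.ψ z) - γ.A i z.1) z‖ ≤ C * exp (-d * (P.sg * z.2))
  Φ : ∀ w, ∃ C, ∀ z, L < P.sg * z.2 →
    ‖P.D.Z.Dw w (fun z => c.Φ (P.K.ψ z) - γ.Φ z.1) z‖ ≤ C * exp (-d * (P.sg * z.2))

variable (X : Ends 𝔉 δ) (hL : X.R ≤ L)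
include hL

theorem nice_ends {f g : M → N} (hf : Sm I f) (hg : Nice 𝔉.F0.toPre g)
    (e : ∀ a z, L < (X.P a).sg * z.2 → f ((X.P a).K.ψ z) = g ((X.P a).K.ψ z)) :
    Nice 𝔉.F0.toPre f := by
  have := (Nice.of_hcs (F := 𝔉.F0.toPre) (u := fun x => f x - g x) (hf.sub hg.sm)
    (HasCompactSupport.intro (core X hL) fun x hx => by
      obtain ⟨a, ha⟩ := mem_iUnion.1 (not_not.1 hx)
      obtain ⟨z, hz, rfl⟩ := U_eq (X.okP a) hL ▸ ha
      exact sub_eq_zero.2 (e a z hz))).add hg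
  simpa only [sub_add_cancel] using this

theorem exists_ext {g : ∀ a, (X.P a).Y.M → N} (hg : ∀ a, Sm (IC (X.P a).Y.I) fun z : _ × ℝ => g a z.1) :
    ∃ f : M → N, 𝔉.F0.Cb f ∧ ∀ a z, L + 1 < (X.P a).sg * z.2 → f ((X.P a).K.ψ z) = g a z.1 := by
  choose f g1 g2 g3 using fun a => Pnt66.exists_push X hL a (cb_inv (X.P a).D.F.toPre (hg a))
  refine ⟨fun x => ∑ a, f a x, Cb_sum _ fun a _ => g1 a, fun a z hz => ?_⟩
  have hz' : L < (X.P a).sg * z.2 := by linarith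
  beta_reduce
  rw [Finset.sum_eq_single a (fun a' _ k => g2 a' _ fun k' => disjoint_left.1 (X.dis k)
    (U_mono _ hL k') (U_mono _ hL (mem_U (X.okP a) hL hz'))) (by simp), g3 a z hz',
    smoothTransition.one_of_one_le (by linarith), one_smul]

/-- linear equations along the ends -/
theorem nice_lin [FiniteDimensional ℝ N] {f : M → N} (hf : Sm I f) {A : Option κ → M → N →L[ℝ] N}
    (hA : ∀ a, 𝔉.F0.Cb (A a)) (hB : ∀ a, Nice 𝔉.F0.toPre fun x => 𝔉.F0.D a f x - A a x (f x))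
    (h1 : ∀ a, ∀ x ∈ (X.P a).U L, A none x = 0)
    (h0 : ∀ a y, ∀ ε > 0, ∃ᶠ s in atTop, ‖f ((X.P a).pt s y)‖ ≤ ε) : Nice 𝔉.F0.toPre f := by
  let e : N →L[ℝ] EuclideanSpace ℝ (Fin (Module.finrank ℝ N)) := toEuclidean (E := N)
  let e' : EuclideanSpace ℝ (Fin (Module.finrank ℝ N)) →L[ℝ] N := (toEuclidean (E := N)).symm
  have ee : ∀ v, e' (e v) = v := (toEuclidean (E := N)).symm_apply_apply
  have s : Sm I fun x => e (f x) := e.contMDiff.comp hf
  have p : 0 < ‖e‖ + 1 := by positivity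
  have m := hardy X hL s ((hB none).clm e) (fun a x hx => (dv_clm e (Wz78.SA.md (hf x))).trans (by
    rw [h1 a x hx, _root_.zero_apply, sub_zero]; rfl)) fun a y ε hε =>
      (h0 a y _ (div_pos hε p)).mono fun s hs => (e.le_opNorm_of_le hs).trans (by
        rw [mul_div_assoc', div_le_iff₀ p]; nlinarith)
  have m' : MemLp f 2 𝔉.F0.μ := by simpa only [comp_def, ee] using e'.comp_memLp' m
  have := (Grp76.nice_of_fl X.ok.tame.choose_spec s fun j => ML.clm 𝔉.F0.sm e hf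
    (Grp76.fl_of_lin hf m' hA hB (fun a x => (add_sub_cancel _ _).symm) j)).clm e'
  simpa only [ee] using this

omit hL in
theorem zz_nice {f : M → N} [FiniteDimensional ℝ N] (hf : Nice 𝔉.F0.toPre f) (a : X.A) (k : ℕ) :
    ZZ (X.P a).D.Z.toPre (hyperfilter ℕ : Filter ℕ) (fun n : ℕ => win (X.P a).Y.M ((X.P a).sg * n) 1) k
      fun _ z => f ((X.P a).K.ψ z) := by
  let e : N →L[ℝ] EuclideanSpace ℝ (Fin (Module.finrank ℝ N)) := toEuclidean (E := N)
  let e' : EuclideanSpace ℝ (Fin (Module.finrank ℝ N)) →L[ℝ] N := (toEuclidean (E := N)).symm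
  have h := X.okP a
  refine (ZZ.clm e' (f := fun _ z => e (f ((X.P a).K.ψ z))) fun ε hε => ?_).congr' fun _ _ =>
    ((toEuclidean (E := N)).symm_apply_apply _).symm
  filter_upwards [hyp_top.eventually_gt_atTop (X.R + 1), ((tendsto_atTop_add_const_right _ (-1)
    hyp_top).const_mul_atTop X.δ0).eventually (nice_tail X k (hf.clm e) ε hε)] with n hn h2
  have hi : ∀ z ∈ win (X.P a).Y.M ((X.P a).sg * n) 1, X.R < (X.P a).sg * z.2 := fun z hz => by
    linarith [(abs_lt.1 (mem_win.1 hz)).1]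
  refine ⟨win_op _ _, (lb_iff ((fRel0 X.ok h).mono (win_op _ _) hi) fun _ _ => rfl).2
    (h2.sub (forall_mem_image.2 fun z hz => ?_))⟩
  rw [mem_ofPred_eq, h.wt _ (mem_U h le_rfl (hi z hz)), (X.P a).K.tm_ψ z (mem_src h le_rfl (hi z hz))]
  exact mul_lt_mul_of_pos_left (by linarith [(abs_lt.1 (mem_win.1 hz)).1]) X.δ0

omit hL in
/-- **an equivalence is asymptotically static** -/
theorem asym {o : Ref 𝔉} {x : Pnt o r} {c : Cfg M (Option κ) lam r} {w : M → CL c.m.V o.m.V}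
    {ζ : Circle} (hl : X.Lit o R) (hR : R ≤ L) (hd : δ < d) (hO : 𝔉.Om = univ)
    (ok : c.m.OK I 𝔉.B) (sW : ∀ i, Sm I (c.W i)) (sΦ : Sm I c.Φ)
    (e : EqOn 𝔉.B (𝔉.G x.t).F 𝔉.Om c x.cfg w ζ)
    {γ : ∀ a, YL (X.P a).Y.M κ lam c.m.N} (h : ∀ a, As (X.P a) c L d (γ a)) :
    ∃ (g : ∀ a, (X.P a).Y.M → CL c.m.V o.m.V) (ξ : X.A → Circle) (w' : M → CL c.m.V o.m.V),
      (∀ a, Stb (X.P a).D ((γ a).β c.m.J) ((X.P a).sl o (R + 1) x.t) (g a) (ξ a)) ∧ 𝔉.F0.Cb w ∧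
      𝔉.F0.Cb w' ∧ Nice 𝔉.F0.toPre (fun z => w z - w' z) ∧
      ∀ a z, L + 1 < (X.P a).sg * z.2 → w' ((X.P a).K.ψ z) = g a z.1 := by
  have H := X.ok
  have hL := hl.le.trans hR
  have hL' : X.R ≤ L + 1 := by linarith
  have u : ∀ z, z ∈ 𝔉.Om := fun _ => hO ▸ trivial
  have i0 : Iso0 I c.m o.m 𝔉.Om w := .of_mEq H.Om.2 e.m (OK.on ok _) (OK.on o.ok _)
  choose A' cA eA using fun i => exists_ext X hL (g := fun a => (γ a).A i) fun a =>
    (h a).adm.adm.conn.cc.sm i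
  obtain ⟨Φ', cΦ, eΦ⟩ := exists_ext X hL (g := fun a => (γ a).Φ) fun a => (h a).adm.adm.sm
  have n1 := fun i => nice_of_dec X hd hL' (f := fun z => c.W i z - A' i z)
    ((sW i).sub (cb_sm (cA i))) (fun a z hz => by rw [eA i a z hz]) fun a v =>
      ((h a).A i v).imp fun C hC z hz => hC z (by linarith)
  have n2 := nice_of_dec X hd hL' (f := fun z => c.Φ z - Φ' z) (sΦ.sub (cb_sm cΦ))
    (fun a z hz => by rw [eΦ a z hz]) fun a v => ((h a).Φ v).imp fun C hC z hz => hC z (by linarith)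
  have nα := fun i => (((hs_iff H).1 x.hα).1.clm (Grp76.pj o.m.A i)).clm opL
  have sw : Sm I w := fun z => i0.su z (u z)
  have par : ∀ a i, ∀ z ∈ (X.P a).U X.R, 𝔉.F0.D i w z + (o.A x.t i z + opL (x.α z i)) ∘L w z -
      w z ∘L c.W i z = 0 := fun a i z hz => by
    have k : (𝔉.G x.t).F.D i w z + o.W x.t x.α i z ∘L w z - w z ∘L c.W i z = 0 :=
      (par0_iff ((IsConn.on (x.ad0 H).conn _).proj' H.B)).2 e.W z (u z) i
    rwa [D_end H (X.okP a) x.ht hz, W_end (X.okP a) H x.ht _ hz (x.pα H z)] at k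
  have c0 := fun i => cb_mxL (show 𝔉.F0.Cb (c.W i) by
    simpa only [Pi.add_def, sub_add_cancel] using Cb_add (n1 i).1 (cA i)) (Cb_add (o.cAt x.t i) (nα i).1)
  have cw : 𝔉.F0.Cb w := cb_lin sw c0 (fun i => (nice_ends X le_rfl ((𝔉.F0.sm_D sw i).sub
    ((cb_sm (c0 i)).clm_apply sw)) (.of_hcs contMDiff_const .zero) fun a z hz =>
      mxL_alg0 (par a i _ (mem_U (X.okP a) le_rfl hz))).1) 
    fun z => norm_iso (i0.iso z (u z))
  let cv : Option κ → M → CL c.m.V o.m.V := fun i z =>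
    w z ∘L (c.W i z - A' i z) - opL (x.α z i) ∘L w z
  have nc : ∀ i, Nice 𝔉.F0.toPre (cv i) := fun i =>
    (nice_cl cw (n1 i)).sub (nice_cr (nα i) cw)
  have ec : ∀ a i, ∀ z ∈ (X.P a).U X.R,
      𝔉.F0.D i w z + o.A x.t i z ∘L w z - w z ∘L A' i z = cv i z := fun a i z hz => by
    rw [← sub_eq_zero, ← par a i z hz]
    simp only [cv, ContinuousLinearMap.comp_sub, ContinuousLinearMap.add_comp]
    abel
  have l := fun a (z : (X.P a).Y.M × ℝ) (hz : R < (X.P a).sg * z.2) =>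
    lit_eq (hl.lit a) x.ht hz z.1
  simp only [show ∀ a (z : (X.P a).Y.M × ℝ), (X.P a).pt ((X.P a).sg * z.2) z.1 = (X.P a).K.ψ z from
    fun a z => by rw [End.pt, sg_sq]] at l
  have eW : ∀ a i z, R < (X.P a).sg * z.2 → o.A x.t i ((X.P a).K.ψ z) =
      o.W x.t 0 i ((X.P a).pt (R + 1) z.1) := fun a i z hz => by
    rw [← (l a z hz).2.2.2.1, W0_end H (X.okP a) x.ht (mem_U (X.okP a) le_rfl (hl.le.trans_lt hz))]
  have key : ∀ a, ∃ g ξ, Stb (X.P a).D ((γ a).β c.m.J) ((X.P a).sl o (R + 1) x.t) g ξ ∧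
      ∀ y, ∀ ε > 0, ∃ᶠ s in atTop, ‖w ((X.P a).pt s y) - g y‖ ≤ ε := fun a => by
    have k := X.okP a
    have hn : ∀ᶠ n : ℕ in hyperfilter ℕ, ∀ z ∈ win (X.P a).Y.M ((X.P a).sg * n) 1,
        L + 1 < (X.P a).sg * z.2 := (hyp_top.eventually_ge_atTop (L + 2)).mono fun n hn z hz => by
      linarith [(abs_lt.1 (mem_win.1 hz)).1]
    have z : ∀ j, CZ (X.P a).D.Z (hyperfilter ℕ : Filter ℕ) (fun n : ℕ => win (X.P a).Y.M
        ((X.P a).sg * n) 1) j (fun _ => cy ((γ a).β c.m.J)) (cy ((X.P a).sl o (R + 1) x.t))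
        (fun _ z => w ((X.P a).K.ψ z)) fun _ _ => ζ := fun j => by
      refine CZ.mk (hn.mono fun n hn => ?_) (fun i => (zz_nice X (nice_cr (nc i)
        (Cb_clm trnL cw)) a j).congr (hn.mono fun n hn z hz => ?_))
        ((zz_nice X (((hs_iff H).1 x.hφ).1.sub ((n2.app cw).clm (csL o.m.J ζ))) a j).congr
          (hn.mono fun n hn z hz => ?_))
      · have f := (fRel0 H k).mono (win_op _ _) fun z hz => hL'.trans_lt (hn z hz)
        have l1 := fun z hz => l a z (by linarith [hn z hz])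
        have l2 := fun z hz => (h a).lit z (by linarith [hn z hz])
        refine ⟨fun z hz => f.sm hz (i0.su _ (u _)), fun z hz => ?_, fun z _ => i0.J _ (u _),
          fun z hz b => ?_, fun z hz s => ?_⟩
        · have : CIso _ (c.m.p _) (o.m.p _) := i0.iso _ (u ((X.P a).K.ψ z))
          rwa [(l1 z hz).1, (l2 z hz).1] at this
        · have : o.m.ρ _ _ ∘L _ = _ ∘L c.m.ρ _ _ := i0.ρ _ (u ((X.P a).K.ψ z)) b
          rwa [(l1 z hz).2.1, (l2 z hz).2.1] at this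
        · have : o.m.j _ _ ∘L _ = _ ∘L c.m.j _ _ := i0.j _ (u ((X.P a).K.ψ z)) s
          rwa [(l1 z hz).2.2.1, (l2 z hz).2.2] at this
      · have f := (fRel0 H k).mono (win_op _ _) fun z hz => hL'.trans_lt (hn z hz)
        show ((X.P a).D.Z.D i (fun z => w ((X.P a).K.ψ z)) z + o.W x.t 0 i ((X.P a).pt (R + 1) z.1) ∘L
          w _ - w _ ∘L (γ a).A i z.1) ∘L trn (w _) = cv i _ ∘L trn (w _)
        rw [f.D hz i (u' := w) (.of_forall fun _ => rfl), ← eA i a z (hn z hz),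
          ← eW a i z (by linarith [hn z hz]), ec a i _ (mem_U k le_rfl (hL'.trans_lt (hn z hz)))]
      · have k1 : ∀ z, o.Φ0 z + x.φ z = cs o.m.J ζ (w z (c.Φ z)) := fun z => e.Φ z (u z)
        show cs o.m.J ζ (w _ ((γ a).Φ z.1)) - o.Φ0 ((X.P a).pt (R + 1) z.1) = _
        rw [← (l a z (by linarith [hn z hz])).2.2.2.2, ← eΦ a z (hn z hz), map_sub, map_sub,
          csL_apply, csL_apply, ← k1]
        abel
    obtain ⟨g, ξ, g1, -, g3⟩ := step_fam (h a).adm (adm_sl H k x.ht hl.le (hl.lit a))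
      one_half_lt_one one_pos
      (.of_forall fun _ => (Tmp64.admOn_univ.2 (h a).adm.adm).mono (subset_univ _))
      (fun j => stb_cz (.of_forall fun _ => win_op _ _) (.of_forall fun _ => Stb.refl (h a).adm)) z
    refine ⟨g, ξ, g1, fun y ε hε => hyp_top.frequently ((((g3 0).le hε).and hn).mono
      fun n k1 => ?_).frequently⟩
    have m : ∀ {ρ}, 0 < ρ → (y, (X.P a).sg * n) ∈ win (X.P a).Y.M ((X.P a).sg * n) ρ := fun p =>
      mem_win.2 (by rwa [sg_sq, sub_self, abs_zero])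
    have k2 : ‖w _ ∘L ad ((γ a).p _) - _‖ ≤ ε := k1.1 _ (m one_half_pos)
    rwa [← ((h a).lit _ (by linarith [k1.2 _ (m one_pos)])).1, ad_trn, trn_of_sym (ok.psym _),
      (i0.iso _ (u _)).idem] at k2
  choose g ξ g1 g2 using key
  obtain ⟨w', cw', ew⟩ := exists_ext X hL (N := CL c.m.V o.m.V) (g := g) fun a z =>
    (g1 a).iso.su z trivial
  have sw' := cb_sm cw'
  have c𝒜 := fun i => cb_mxL (cA i) (o.cAt x.t i)
  refine ⟨g, ξ, w', g1, cw, cw', nice_lin X hL' (sw.sub sw') c𝒜 (fun i => nice_ends X hL'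
    ((𝔉.F0.sm_D (sw.sub sw') i).sub ((cb_sm (c𝒜 i)).clm_apply (sw.sub sw'))) (nc i) fun a z hz => ?_)
    (fun a z hz => ?_) fun a y ε hε => ((g2 a y ε hε).and_eventually
      (eventually_gt_atTop (L + 1))).mono fun s hs => ?_, ew⟩
  · have k := X.okP a
    have k1 : (X.P a).D.Z.D i (fun z => g a z.1) z + o.W x.t 0 i ((X.P a).pt (R + 1) z.1) ∘L g a z.1 -
      g a z.1 ∘L (γ a).A i z.1 = 0 := (g1 a).par i z
    rw [(fRel0 H k).D (hL'.trans_lt hz) i (u' := w') (((isOpen_hi _ (L + 1)).eventually_mem hz).mono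
      fun y hy => (ew a y hy).symm), ← eA i a z hz, ← eW a i z (by linarith), ← ew a z hz] at k1
    exact (congrArg (· - _) (dv_sub (Wz78.SA.md (sw _)) (Wz78.SA.md (sw' _)))).trans
      ((mxL_alg _ _ k1).trans (ec a i _ (mem_U k le_rfl (hL'.trans_lt hz))))
  · rw [U_eq (X.okP a) hL'] at hz
    obtain ⟨z, hz, rfl⟩ := hz
    have k1 : A' none ((X.P a).K.ψ z) = 0 := (eA none a z hz).trans ((h a).adm.tmp _)
    have k2 := (eW a none z (by linarith [hz.out])).trans ((hl.lit a).tmp _ x.ht _)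
    exact (congrArg₂ mxL k1 k2).trans mxL_zero
  · have := ew a (y, (X.P a).sg * s) (by rw [sg_sq]; exact hs.2)
    exact (congrArg (fun v => ‖w _ - v‖) this).trans_le hs.1

/-- the defect of the moving parts -/
theorem nice_cj {n n' : ℕ} {w w' : M → CL (Eu (Fin n)) (Eu (Fin n'))} (cw : 𝔉.F0.Cb w)
    (cw' : 𝔉.F0.Cb w') (hn : Nice 𝔉.F0.toPre fun z => w z - w' z) {b : M → HS (Fin n)}
    {b' : M → HS (Fin n')} (cb : 𝔉.F0.Cb b) (sb : Sm I b') (e : ∀ a z, L < (X.P a).sg * z.2 →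
      cj (w' ((X.P a).K.ψ z)) (b ((X.P a).K.ψ z)) = b' ((X.P a).K.ψ z)) :
    Nice 𝔉.F0.toPre fun z => cj (w z) (b z) - b' z := by
  have c1 := Cb_clm opL cb
  refine nice_ends X hL ((cb_sm (Cb_app (Cb_cj cw) cb)).sub sb) (((nice_cr hn (Cb_comp c1
    (Cb_clm trnL cw))).add (nice_cl cw' (nice_cl c1 (hn.clm trnL)))).clm hsL) fun a z hz => ?_
  rw [← e a z hz, cj_apply, cj_apply, ← map_sub]
  refine congrArg _ ?_
  simp only [map_sub, ContinuousLinearMap.comp_sub, ContinuousLinearMap.sub_comp]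
  exact (sub_add_sub_cancel _ _ _).symm

theorem cb_lit {f : M → N} (hf : Sm I f)
    (e : ∀ a y s, L < s → f ((X.P a).pt s y) = f ((X.P a).pt (L + 1) y)) : 𝔉.F0.Cb f :=
  cb_of_lit X hL hf (g := fun a z => f ((X.P a).pt (L + 1) z.1))
    (fun a z hz => by rw [← e a _ _ hz, End.pt, sg_sq]) fun a => cb_inv _ (sm_fst fun y => sm_slice
      ((X.P a).K.rel.sm (mem_src (X.okP a) hL (by rw [sg_sq]; exact lt_add_one L)) (hf _)))

omit hL in
/-- the moving part of a chart on an end -/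
theorem b_lin {o : Ref 𝔉} (hl : X.Lit o R) (a : X.A) {t₀ : T} (h0 : t₀ ∈ 𝔉.Q)
    {β : YC (X.P a).Y.M κ lam} {η : κ → (X.P a).Y.M → β.m.A} {l : T →L[ℝ] ℝ}
    {v : (X.P a).Y.M × ℝ → CL β.m.V o.m.V} (mov : ∀ t ∈ 𝔉.Q, EqOn (X.P a).D.B (X.P a).D.Z univ
      (cy (Rdc90.bh β (l t • η) 0)) (cy ((X.P a).sl o (R + 1) t)) v 1) (t : T) {z : (X.P a).Y.M × ℝ}
    (hz : R < (X.P a).sg * z.2) (i : Option κ) :
    o.b t ((X.P a).K.ψ z) i = l t • cj (v (z.1, 0)) (Rd78.up β η (z.1, 0) i) := by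
  have H := X.ok
  have k := X.okP a
  have lt := fun {t} ht => lit_eq (hl.lit a) (t := t) ht hz z.1
  simp only [End.pt, sg_sq (X.P a) z.2] at lt
  have e1 : ∀ t ∈ 𝔉.Q, (X.P a).D.Z.D i v (z.1, 0) + (o.A0 i ((X.P a).K.ψ z) +
      opL (o.b t ((X.P a).K.ψ z) i)) ∘L v (z.1, 0) - v (z.1, 0) ∘L (β.W i z.1 +
        l t • opL (Rd78.up β η (z.1, 0) i)) = 0 := fun t ht => by
    rw [← Pnt66.W_end' H k o ht (mem_U k le_rfl (hl.le.trans_lt hz)), (lt ht).2.2.2.1,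
      ← Pte3.W_lin (l t) i (z.1, 0)]
    exact (par0_iff ((IsConn.on (adm_sl H k ht hl.le (hl.lit a)).adm.conn _).proj' k.D.B)).2
      (mov t ht).W (z.1, 0) trivial i
  obtain ⟨s, s0, hs⟩ := (eventually_mem_nhdsWithin.and ((show Tendsto (fun s : ℝ => t₀ + s • t) (𝓝 0)
    (𝓝 t₀) from (continuous_const.add (continuous_id.smul continuous_const)).tendsto' _ _
      (by simp)).mono_left (nhdsWithin_le_nhds (s := {0}ᶜ)) (H.opn.mem_nhds h0))).exists
  have e2 : s • (opL (o.b t ((X.P a).K.ψ z) i) ∘L v (z.1, 0) -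
      l t • v (z.1, 0) ∘L opL (Rd78.up β η (z.1, 0) i)) = 0 := by
    rw [← sub_eq_zero.2 ((e1 _ hs).trans (e1 _ h0).symm)]
    simp only [map_add, map_smul, Pi.add_apply, Pi.smul_apply, PiLp.add_apply, PiLp.smul_apply,
      ContinuousLinearMap.add_comp, ContinuousLinearMap.comp_add, ContinuousLinearMap.smul_comp,
      ContinuousLinearMap.comp_smul, smul_eq_mul]
    module
  have e3 := congrArg (· ∘L trn (v (z.1, 0))) (sub_eq_zero.1 ((smul_eq_zero.1 e2).resolve_left s0))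
  have e4 : v (z.1, 0) ∘L trn (v (z.1, 0)) = o.m.p ((X.P a).K.ψ z) :=
    ((mov t₀ h0).m.uu' (z.1, 0) trivial).trans (lt h0).1.symm
  refine Wz78.opL_inj ?_
  rw [map_smul, opL_cj, ← Wz78.g_p' o.ok (o.b_mem t _ i), ← e4]
  exact e3

end Crest.Agent.X212.Gnk23
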